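import Vale.Agent.P042.H74.Tiny
import Mathlib.NumberTheory.Primorial

set_option autoImplicit false

/-!
P042, block [D]: the size of the moduli attached to the tiny primes (helper758).

`qone k R T ≤ sfac k * R * 4 ^ K` and `qnul ≤ (sfac k * R) ^ 2 * 4 ^ K` for a set `T` of primes
up to `K`.
-/

namespace Vale.Agent.P042.H758
open Polynomial Finset Vale.Agent.P042.H74 Vale.Agent.P042.SS

/-- the product of the prime-power parts at a set of primes divides the number -/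
theorem prod_pow_factorization_dvd (m : ℕ) (T : Finset ℕ) (hT : ∀ p ∈ T, p.Prime) :
    ∏ p ∈ T, p ^ m.factorization p ∣ m := by
  apply Finset.prod_dvd_of_isRelPrime
  · intro p hp q hq hne
    simp only [Function.onFun]
    rw [← Nat.coprime_iff_isRelPrime]
    exact Nat.Coprime.pow _ _ ((Nat.coprime_primes (hT p hp) (hT q hq)).2 hne)
  · intro p _
    exact Nat.ordProj_dvd m p

/-- the product of the prime-power parts at a set of primes is at most the number itself -/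
theorem prod_pow_factorization_le {m : ℕ} (hm : m ≠ 0) (T : Finset ℕ) (hT : ∀ p ∈ T, p.Prime) :
    ∏ p ∈ T, p ^ m.factorization p ≤ m :=
  Nat.le_of_dvd (Nat.pos_of_ne_zero hm) (prod_pow_factorization_dvd m T hT)

/-- a set of primes up to `K` has product at most `4 ^ K` -/
theorem prod_primes_le {K : ℕ} {T : Finset ℕ} (hT : ∀ p ∈ T, p.Prime) (hK : ∀ p ∈ T, p ≤ K) :
    ∏ p ∈ T, p ≤ 4 ^ K := by
  have h1 : T ⊆ (range (K + 1)).filter Nat.Prime := by
    intro p hp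
    rw [mem_filter, mem_range]
    exact ⟨by have := hK p hp; omega, hT p hp⟩
  calc ∏ p ∈ T, p ≤ ∏ p ∈ (range (K + 1)).filter Nat.Prime, p := by
        apply Finset.prod_le_prod_of_subset_of_one_le' h1
        intro p hp _
        exact (mem_filter.1 hp).2.one_lt.le
    _ = primorial K := rfl
    _ ≤ 4 ^ K := primorial_le_four_pow K

/-- the modulus of the substitution is small -/
theorem qone_le {k R K : ℕ} {T : Finset ℕ} (hR : 1 ≤ R) (hT : ∀ p ∈ T, p.Prime)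
    (hK : ∀ p ∈ T, p ≤ K) : qone k R T ≤ sfac k * R * 4 ^ K := by
  have hm : sfac k * R ≠ 0 := by
    have := sfac_pos k
    positivity
  calc qone k R T = (∏ p ∈ T, p ^ (sfac k * R).factorization p) * ∏ p ∈ T, p := by
        unfold qone Vp
        rw [← Finset.prod_mul_distrib]
        exact Finset.prod_congr rfl fun p _ => pow_succ _ _
    _ ≤ sfac k * R * 4 ^ K :=
        Nat.mul_le_mul (prod_pow_factorization_le hm T hT) (prod_primes_le hT hK)

/-- the crude bound of `qnul` -/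
theorem qnul_le_sq (f : ℤ[X]) {q1 : ℕ} (h : 1 ≤ q1) (z0 : ℤ) : qnul f q1 z0 ≤ q1 ^ 2 := by
  unfold qnul
  rw [sq]
  apply Nat.mul_le_mul_left
  have h1 : Int.gcd ((derivative f).eval z0) q1 ∣ q1 := by
    have := Int.gcd_dvd_right ((derivative f).eval z0) (q1 : ℤ)
    exact_mod_cast this
  exact Nat.le_of_dvd (by omega) h1

/-- `gcd (f' (z0), q1)` only contains the powers `p ^ V p` -/
theorem TinyD.gcd_dvd {f : ℤ[X]} {T : Finset ℕ} {V : ℕ → ℕ} {q1 : ℕ} {z0 : ℤ}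
    (h : TinyD f T V q1 z0) :
    Int.gcd ((derivative f).eval z0) q1 ∣ ∏ p ∈ T, p ^ V p := by
  have hq1 := h.q1_pos
  set g := Int.gcd ((derivative f).eval z0) q1 with hg
  have hgq : g ∣ q1 := by
    have := Int.gcd_dvd_right ((derivative f).eval z0) (q1 : ℤ)
    exact_mod_cast this
  have hgf : (g : ℤ) ∣ (derivative f).eval z0 := Int.gcd_dvd_left _ _
  have hg0 : g ≠ 0 := fun h0 => by
    rw [h0] at hgq
    have := Nat.eq_zero_of_zero_dvd hgq
    omega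
  have hsupp : g.factorization.support ⊆ T := by
    intro p hp
    have hpp := Nat.prime_of_mem_primeFactors (by rwa [← Nat.support_factorization])
    have hpg : p ∣ g := Nat.dvd_of_mem_primeFactors (by rwa [← Nat.support_factorization])
    have h1 : p ∣ ∏ q ∈ T, q ^ (V q + 1) := h.q1_eq ▸ hpg.trans hgq
    obtain ⟨q, hq, hd⟩ := (Prime.dvd_finsetProd_iff hpp.prime _).1 h1
    have h2 := hpp.dvd_of_dvd_pow hd
    rw [(Nat.prime_dvd_prime_iff_eq hpp (h.prime q hq)).1 h2]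
    exact hq
  have h3 : g = ∏ p ∈ T, p ^ g.factorization p := by
    conv_lhs => rw [← Nat.prod_factorization_pow_eq_self hg0]
    exact Finsupp.prod_of_support_subset _ hsupp _ fun _ _ => pow_zero _
  rw [h3]
  apply Finset.prod_dvd_prod_of_dvd
  intro p hp
  apply pow_dvd_pow
  by_contra hlt
  apply h.ns p hp
  have h4 : p ^ (V p + 1) ∣ g := (pow_dvd_pow p (by omega)).trans (Nat.ordProj_dvd g p)
  exact (Int.natCast_dvd_natCast.2 h4).trans hgf

/-- the bound of `qnul` -/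
theorem qnul_le {f : ℤ[X]} {k R K : ℕ} {T : Finset ℕ} {q1 : ℕ} {z0 : ℤ} (hR : 1 ≤ R)
    (h : TinyD f T (Vp k R) q1 z0) (hK : ∀ p ∈ T, p ≤ K) :
    qnul f q1 z0 ≤ (sfac k * R) ^ 2 * 4 ^ K := by
  have hm : sfac k * R ≠ 0 := by
    have := sfac_pos k
    positivity
  have h1 : q1 ≤ sfac k * R * 4 ^ K := by
    have := qone_le (k := k) hR h.prime hK
    rwa [h.q1_eq]
  have h2 : Int.gcd ((derivative f).eval z0) q1 ≤ sfac k * R := by
    refine (Nat.le_of_dvd ?_ (TinyD.gcd_dvd h)).trans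
      (prod_pow_factorization_le hm T h.prime)
    exact Nat.pos_of_ne_zero (prod_ne_zero_iff.2 fun p hp => pow_ne_zero _ (h.prime p hp).ne_zero)
  calc qnul f q1 z0 = q1 * Int.gcd ((derivative f).eval z0) q1 := rfl
    _ ≤ (sfac k * R * 4 ^ K) * (sfac k * R) := Nat.mul_le_mul h1 h2
    _ = (sfac k * R) ^ 2 * 4 ^ K := by ring

/-! ### real forms -/

theorem qone_le_exp {k R : ℕ} {T : Finset ℕ} {K0 : ℝ} (hR : 1 ≤ R) (hT : ∀ p ∈ T, p.Prime)
    (hK0 : 0 ≤ K0) (hK : ∀ p ∈ T, (p : ℝ) ≤ K0) :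
    (qone k R T : ℝ) ≤ (sfac k * R : ℝ) * Real.exp (Real.log 4 * K0) := by
  have h1 := qone_le (k := k) (K := ⌊K0⌋₊) hR hT fun p hp => Nat.le_floor (hK p hp)
  calc (qone k R T : ℝ) ≤ ((sfac k * R * 4 ^ ⌊K0⌋₊ : ℕ) : ℝ) := by exact_mod_cast h1
    _ = (sfac k * R : ℝ) * (4 : ℝ) ^ ⌊K0⌋₊ := by push_cast; ring
    _ ≤ (sfac k * R : ℝ) * Real.exp (Real.log 4 * K0) := by
        apply mul_le_mul_of_nonneg_left _ (by positivity)
        rw [← Real.rpow_natCast, Real.rpow_def_of_pos (by norm_num)]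
        apply Real.exp_le_exp.2
        exact mul_le_mul_of_nonneg_left (Nat.floor_le hK0) (Real.log_nonneg (by norm_num))

theorem qnul_le_exp {f : ℤ[X]} {k R : ℕ} {T : Finset ℕ} {q1 : ℕ} {z0 : ℤ} {K0 : ℝ} (hR : 1 ≤ R)
    (h : TinyD f T (Vp k R) q1 z0) (hK0 : 0 ≤ K0) (hK : ∀ p ∈ T, (p : ℝ) ≤ K0) :
    (qnul f q1 z0 : ℝ) ≤ (sfac k * R : ℝ) ^ 2 * Real.exp (Real.log 4 * K0) := by
  have h1 := qnul_le (K := ⌊K0⌋₊) hR h fun p hp => Nat.le_floor (hK p hp)
  calc (qnul f q1 z0 : ℝ) ≤ (((sfac k * R) ^ 2 * 4 ^ ⌊K0⌋₊ : ℕ) : ℝ) := by exact_mod_cast h1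
    _ = (sfac k * R : ℝ) ^ 2 * (4 : ℝ) ^ ⌊K0⌋₊ := by push_cast; ring
    _ ≤ (sfac k * R : ℝ) ^ 2 * Real.exp (Real.log 4 * K0) := by
        apply mul_le_mul_of_nonneg_left _ (by positivity)
        rw [← Real.rpow_natCast, Real.rpow_def_of_pos (by norm_num)]
        apply Real.exp_le_exp.2
        exact mul_le_mul_of_nonneg_left (Nat.floor_le hK0) (Real.log_nonneg (by norm_num))

theorem log_qnul_le {f : ℤ[X]} {k R : ℕ} {T : Finset ℕ} {q1 : ℕ} {z0 : ℤ} {K0 : ℝ} (hR : 1 ≤ R)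
    (h : TinyD f T (Vp k R) q1 z0) (hK0 : 0 ≤ K0) (hK : ∀ p ∈ T, (p : ℝ) ≤ K0) :
    Real.log (qnul f q1 z0) ≤ 2 * Real.log (sfac k) + 2 * Real.log R + Real.log 4 * K0 := by
  have h1 := qnul_le_exp hR h hK0 hK
  have h2 : (0 : ℝ) < qnul f q1 z0 := by
    have := qnul_pos (f := f) z0 h.q1_pos
    exact_mod_cast this
  have h3 : (0 : ℝ) < sfac k := by
    have := sfac_pos k
    exact_mod_cast this
  have h4 : (0 : ℝ) < R := by exact_mod_cast hR
  calc Real.log (qnul f q1 z0) ≤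
      Real.log ((sfac k * R : ℝ) ^ 2 * Real.exp (Real.log 4 * K0)) := Real.log_le_log h2 h1
    _ = 2 * Real.log (sfac k) + 2 * Real.log R + Real.log 4 * K0 := by
        rw [Real.log_mul (by positivity) (Real.exp_pos _).ne', Real.log_exp, Real.log_pow,
          Real.log_mul h3.ne' h4.ne']
        push_cast
        ring

/-- the form asked in 359's post: everything is at most `exp (C K0)` -/
theorem qnul_le_exp' {f : ℤ[X]} {k R : ℕ} {T : Finset ℕ} {q1 : ℕ} {z0 : ℤ} {K0 : ℝ} (hR : 1 ≤ R)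
    (h : TinyD f T (Vp k R) q1 z0) (hK0 : 1 ≤ K0) (hK : ∀ p ∈ T, (p : ℝ) ≤ K0) :
    (qnul f q1 z0 : ℝ) ≤
      Real.exp ((2 * Real.log (sfac k) + 2 * Real.log R + Real.log 4) * K0) := by
  have h1 := log_qnul_le hR h (by linarith) hK
  have h2 : (0 : ℝ) < qnul f q1 z0 := by
    have := qnul_pos (f := f) z0 h.q1_pos
    exact_mod_cast this
  rw [← Real.log_le_iff_le_exp h2]
  have h3 : 0 ≤ Real.log (sfac k) := Real.log_nonneg (by exact_mod_cast sfac_pos k)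
  have h4 : 0 ≤ Real.log (R : ℝ) := Real.log_nonneg (by exact_mod_cast hR)
  nlinarith [mul_nonneg h3 (by linarith : 0 ≤ K0 - 1), mul_nonneg h4 (by linarith : 0 ≤ K0 - 1)]

theorem one_le_qnul {f : ℤ[X]} {T : Finset ℕ} {V : ℕ → ℕ} {q1 : ℕ} {z0 : ℤ}
    (h : TinyD f T V q1 z0) : (1 : ℝ) ≤ qnul f q1 z0 := by
  exact_mod_cast qnul_pos (f := f) z0 h.q1_pos

/-- the modulus of the substitution divides (hence is at most) `qnul` -/
theorem q1_le_qnul {f : ℤ[X]} {T : Finset ℕ} {V : ℕ → ℕ} {q1 : ℕ} {z0 : ℤ}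
    (h : TinyD f T V q1 z0) : q1 ≤ qnul f q1 z0 := by
  refine Nat.le_of_dvd (qnul_pos z0 h.q1_pos) ?_
  unfold qnul
  exact Dvd.intro _ rfl

/-- existence of the substitution, with all sizes -/
theorem exists_tiny (f : ℤ[X]) (R : ℕ) (hR : 1 ≤ R) (hk : 1 ≤ f.natDegree)
    (hcont : ∀ g : ℤ, (∀ j : ℕ, 1 ≤ j → g ∣ f.coeff j) → g ∣ (R : ℤ)) (T : Finset ℕ)
    (hT : ∀ p ∈ T, p.Prime) (K0 : ℝ) (hK0 : 0 ≤ K0) (hK : ∀ p ∈ T, (p : ℝ) ≤ K0) :
    ∃ (q1 : ℕ) (z0 : ℕ), z0 < q1 ∧ TinyD f T (Vp f.natDegree R) q1 (z0 : ℤ) ∧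
      (q1 : ℝ) ≤ (sfac f.natDegree * R : ℝ) * Real.exp (Real.log 4 * K0) ∧
      (qnul f q1 z0 : ℝ) ≤ (sfac f.natDegree * R : ℝ) ^ 2 * Real.exp (Real.log 4 * K0) := by
  obtain ⟨z0, hz, hns⟩ := exists_z0 f R hR hk hcont T hT
  have hD : TinyD f T (Vp f.natDegree R) (qone f.natDegree R T) (z0 : ℤ) :=
    ⟨hT, rfl, hns⟩
  exact ⟨_, z0, hz, hD, qone_le_exp hR hT hK0 hK, qnul_le_exp hR hD hK0 hK⟩

/-- polylogarithmic tiny primes: the modulus is `≤ exp (κ P)` -/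
theorem exists_qnul_le_exp (k R : ℕ) (hR : 1 ≤ R) (A κ : ℝ) (hκ : 0 < κ) :
    ∃ P0 : ℝ, ∀ P : ℝ, P0 ≤ P → ∀ (f : ℤ[X]) (T : Finset ℕ) (q1 : ℕ) (z0 : ℤ),
      TinyD f T (Vp k R) q1 z0 → (∀ p ∈ T, (p : ℝ) ≤ (Real.log P) ^ A) →
        (qnul f q1 z0 : ℝ) ≤ Real.exp (κ * P) := by
  have h1 : Filter.Tendsto (fun P : ℝ => (2 * Real.log (sfac k) + 2 * Real.log R) / P +
      Real.log 4 * ((Real.log P) ^ A / P)) Filter.atTop (nhds (0 + Real.log 4 * 0)) := by
    apply Filter.Tendsto.add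
    · exact tendsto_const_nhds.div_atTop Filter.tendsto_id
    · apply Filter.Tendsto.const_mul
      have := isLittleO_log_rpow_rpow_atTop (s := 1) A (by norm_num)
      simpa using this.tendsto_div_nhds_zero
  rw [mul_zero, add_zero] at h1
  have h2 := (h1.eventually_lt_const hκ).and (Filter.eventually_ge_atTop (1 : ℝ))
  obtain ⟨P0, hP0⟩ := Filter.eventually_atTop.1 h2
  refine ⟨P0, fun P hP f T q1 z0 h hK => ?_⟩
  obtain ⟨h3, h4⟩ := hP0 P hP
  have hPpos : 0 < P := by linarith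
  have h5 := log_qnul_le hR h (Real.rpow_nonneg (Real.log_nonneg h4) A) hK
  have h6 : (0 : ℝ) < qnul f q1 z0 := by
    have := one_le_qnul h
    linarith
  rw [← Real.log_le_iff_le_exp h6]
  refine h5.trans ?_
  have h7 : (2 * Real.log (sfac k) + 2 * Real.log R) / P + Real.log 4 * ((Real.log P) ^ A / P) =
      (2 * Real.log (sfac k) + 2 * Real.log R + Real.log 4 * (Real.log P) ^ A) / P := by ring
  rw [h7, div_lt_iff₀ hPpos] at h3
  exact h3.le

end Vale.Agent.P042.H758
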