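import Vale.Agent.P042.H188.TopHi
import Vale.Agent.P042.H74.SeamG

set_option autoImplicit false

/-!
P042, S.7: the numbers of the class sum over the moduli with top primes (target S).
`l = log P`, entropies `cG P / l ^ C`, top primes of `PP` in `[P ^ 2 / l ^ A, P ^ 2]`, other
top primes at least `P ^ C1`.
-/

namespace Vale.Agent.P042.H758
open Finset Filter Vale.Agent.P042 Vale.Agent.P042.SS Vale.Agent.P042.H188 Vale.Agent.P042.H74

/-- the exponents of the classes: `1` at the primes of `PP`, `J0` at the others -/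
def gS (PP : Finset ℕ) (J0 p : ℕ) : ℕ := if p ∈ PP then 1 else J0

theorem gS_le (PP : Finset ℕ) {J0 : ℕ} (h : 1 ≤ J0) (p : ℕ) : gS PP J0 p ≤ J0 := by
  unfold gS
  split_ifs
  · exact h
  · exact le_rfl

theorem one_le_gS (PP : Finset ℕ) {J0 : ℕ} (h : 1 ≤ J0) (p : ℕ) : 1 ≤ gS PP J0 p := by
  unfold gS
  split_ifs
  · exact le_rfl
  · exact h

/-- the span is at most a fixed power of the modulus -/
theorem spn_le_pow (g : ℕ → ℕ) (J0 q : ℕ) (hq : q ≠ 0) (hg : ∀ p ∈ q.primeFactors, g p ≤ J0) :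
    spn g q ≤ q ^ J0 := by
  have h1 : spn g q ≤ (∏ p ∈ lo g q, p ^ q.factorization p) ^ J0 := by
    unfold spn
    rw [← Finset.prod_pow]
    refine Finset.prod_le_prod (fun _ _ => Nat.zero_le _) fun p hp => ?_
    have hpq := lo_sub g q hp
    have hp1 := (Nat.prime_of_mem_primeFactors hpq).one_lt
    have hv : 1 ≤ q.factorization p := by
      have h2 := Nat.support_factorization q
      rw [← h2, Finsupp.mem_support_iff] at hpq
      omega
    rw [← pow_mul]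
    refine Nat.pow_le_pow_right (by omega) ?_
    calc g p ≤ J0 := hg p hpq
      _ = 1 * J0 := (one_mul _).symm
      _ ≤ q.factorization p * J0 := Nat.mul_le_mul_right _ hv
  refine h1.trans (Nat.pow_le_pow_left ?_ J0)
  have h2 := hi_mul g hq
  exact Nat.le_of_dvd (Nat.pos_of_ne_zero hq) ⟨_, ((mul_comm _ _).trans h2).symm⟩

theorem kwS_mem (k : ℕ) (T PP : Finset ℕ) (kap : ℕ → ℕ → ℝ) {p : ℕ} (hp : p ∈ PP) :
    kwS k T PP kap p 1 = 4 * k / √p := by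
  unfold kwS kapW
  rw [if_pos hp, if_pos rfl]

theorem kwS_mem2 (k : ℕ) (T PP : Finset ℕ) (kap : ℕ → ℕ → ℝ) {p v : ℕ} (hp : p ∈ PP)
    (hv : 2 ≤ v) : kwS k T PP kap p v = 0 := by
  unfold kwS kapW
  rw [if_pos hp, if_neg (by omega)]

theorem kapProd_pow (K : ℕ → ℕ → ℝ) {p v : ℕ} (hp : p.Prime) (hv : 1 ≤ v) :
    kapProd K (p ^ v) = K p v := by
  unfold kapProd
  rw [Nat.primeFactors_prime_pow (by omega) hp, prod_singleton, hp.factorization_pow]
  simp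

/-- the rates at prime powers outside `T` -/
theorem kwS_off (k : ℕ) (T PP : Finset ℕ) (kap : ℕ → ℕ → ℝ) {c : ℝ} (hT : ∀ r ∈ T, r.Prime)
    (h : ∀ m : ℕ, 1 ≤ m → (∀ r ∈ T, ¬ r ∣ m) → kapProd (kwS k T PP kap) m ≤ (m : ℝ) ^ (-c))
    {p v : ℕ} (hp : p.Prime) (hpT : p ∉ T) (hv : 1 ≤ v) :
    kwS k T PP kap p v ≤ (p : ℝ) ^ (-(c * v)) := by
  have h1 := h (p ^ v) (Nat.one_le_iff_ne_zero.2 (pow_ne_zero _ hp.ne_zero)) (by
    intro r hr hd
    have h2 := (hT r hr).dvd_of_dvd_pow hd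
    rw [(Nat.prime_dvd_prime_iff_eq (hT r hr) hp).1 h2] at hr
    exact hpT hr)
  rw [kapProd_pow _ hp hv] at h1
  refine h1.trans (le_of_eq ?_)
  rw [Nat.cast_pow, ← Real.rpow_natCast, ← Real.rpow_mul (Nat.cast_nonneg p)]
  congr 1
  ring

theorem ev_log_pow (n : ℕ) {ε : ℝ} (hε : 0 < ε) :
    ∀ᶠ P : ℝ in atTop, Real.log P ^ n ≤ ε * P := by
  have h := (Real.isLittleO_pow_log_id_atTop (n := n)).def hε
  filter_upwards [h, eventually_ge_atTop (1 : ℝ)] with P hP h1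
  have h0 : (0 : ℝ) ≤ Real.log P := Real.log_nonneg h1
  rw [Real.norm_of_nonneg (pow_nonneg h0 n), id, Real.norm_of_nonneg (by linarith)] at hP
  exact hP

theorem ev_log_ge (K : ℝ) : ∀ᶠ P : ℝ in atTop, K ≤ Real.log P :=
  Real.tendsto_log_atTop.eventually_ge_atTop K


/-- the data of a top prime -/
structure TopP (k A : ℕ) (c P : ℝ) (PP : Finset ℕ) (kw : ℕ → ℕ → ℝ) (p : ℕ) : Prop where
  prime : p.Prime
  large : P ^ 2 / Real.log P ^ A ≤ p
  rate : ∀ v : ℕ, 1 ≤ v → kw p v ≤ 4 * k / √p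
  pow : ∀ v : ℕ, 1 ≤ v → kw p v ≤ (p : ℝ) ^ (-(c * v))
  zero : p ∈ PP → ∀ v : ℕ, 2 ≤ v → kw p v = 0

/-- exponent of the classes: choice of `J`, `lam0`, `σ` -/
theorem choose_J (C : ℕ) (cG th : ℝ) (hcG : 0 < cG) (hth : 0 < th) (hC : 1 ≤ C) :
    ∀ᶠ P : ℝ in atTop, ∃ (J : ℕ) (lam0 σ : ℝ), 1 ≤ J ∧
      cG * (P / Real.log P ^ C) ≤ 2 ^ J ∧ (2 : ℝ) ^ J ≤ 2 * (cG * (P / Real.log P ^ C)) ∧
      0 < lam0 ∧ σ * lam0 = 4 ∧ 2 ^ J * lam0 = th * P ∧ 2 ^ (J - 1) * lam0 = th / 2 * P ∧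
      0 < σ ∧ σ ≤ 8 * cG / th / Real.log P := by
  filter_upwards [ev_log_pow C hcG, ev_log_ge 1, eventually_ge_atTop (1 : ℝ)] with P h1 h2 h3
  have hl0 : (0 : ℝ) < Real.log P := by linarith
  have hlC : (0 : ℝ) < Real.log P ^ C := pow_pos hl0 C
  have hP0 : (0 : ℝ) < P := by linarith
  have hx : 1 ≤ cG * (P / Real.log P ^ C) := by
    rw [mul_div_assoc', le_div_iff₀ hlC, one_mul]
    exact h1
  obtain ⟨n, hn1, hn2⟩ := exists_nat_pow_near hx (by norm_num : (1 : ℝ) < 2)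
  have hJp : (0 : ℝ) < 2 ^ (n + 1) := by positivity
  have hle : (2 : ℝ) ^ (n + 1) ≤ 2 * (cG * (P / Real.log P ^ C)) := by
    rw [pow_succ]
    linarith
  refine ⟨n + 1, th * P / 2 ^ (n + 1), 4 * 2 ^ (n + 1) / (th * P), by omega, hn2.le, hle,
    by positivity, by field_simp, by field_simp, ?_, by positivity, ?_⟩
  · rw [Nat.add_sub_cancel, pow_succ]
    field_simp
  · rw [div_le_div_iff₀ (by positivity) hl0]
    have h4 : (2 : ℝ) ^ (n + 1) * Real.log P ≤ 2 * cG * P := by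
      have h5 : (2 : ℝ) ^ (n + 1) * Real.log P ^ C ≤ 2 * cG * P := by
        have h6 := mul_le_mul_of_nonneg_right hle hlC.le
        refine h6.trans (le_of_eq ?_)
        field_simp
      have h7 : Real.log P ≤ Real.log P ^ C := by
        calc Real.log P = Real.log P ^ 1 := (pow_one _).symm
          _ ≤ Real.log P ^ C := pow_le_pow_right₀ h2 hC
      exact (mul_le_mul_of_nonneg_left h7 hJp.le).trans h5
    calc 4 * 2 ^ (n + 1) * Real.log P = 4 * (2 ^ (n + 1) * Real.log P) := by ring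
      _ ≤ 4 * (2 * cG * P) := by linarith
      _ = 8 * cG / th * (th * P) := by field_simp; ring

/-- the numbers at one top prime -/
theorem top_prime_one (k A C : ℕ) (cG s0 : ℝ) (hcG : 0 < cG) (hC : A + 4 ≤ 2 * C) :
    ∀ᶠ P : ℝ in atTop, ∀ (X s κ : ℝ) (p : ℕ), 0 ≤ X →
      X ≤ 2 * (cG * (P / Real.log P ^ C)) → 0 ≤ s → s ≤ s0 / Real.log P →
      P ^ 2 / Real.log P ^ A ≤ p → κ ≤ 4 * k / √p →
      κ * (24 * X * (p : ℝ) ^ s) ≤ 1 / Real.log P := by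
  filter_upwards [ev_log_ge (192 * k * cG * Real.exp (2 * s0)), ev_log_ge (2 * s0),
    ev_log_pow A (ε := 1) one_pos, ev_log_ge 1, eventually_ge_atTop (1 : ℝ)] with
    P e1 e2 e6 e7 e8
  intro X s κ p hX0 hX hs hs1 h1 h3
  set l : ℝ := Real.log P with hl
  have hl0 : (0 : ℝ) < l := by linarith
  have hP0 : (0 : ℝ) < P := by linarith
  have hPl : Real.exp l = P := Real.exp_log hP0
  have hlC : (0 : ℝ) < l ^ C := pow_pos hl0 C
  have hpP' : P ≤ p := by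
    refine le_trans ?_ h1
    rw [le_div_iff₀ (pow_pos hl0 A)]
    rw [one_mul] at e6
    calc P * l ^ A ≤ P * P := mul_le_mul_of_nonneg_left e6 hP0.le
      _ = P ^ 2 := (sq P).symm
  have hp0 : (0 : ℝ) < p := by linarith
  have hsl : s * l ≤ s0 := by
    rw [le_div_iff₀ hl0] at hs1
    exact hs1
  have hsA : 0 < √(l ^ A) := Real.sqrt_pos.2 (pow_pos hl0 A)
  have hsA1 : 1 ≤ √(l ^ A) := Real.one_le_sqrt.2 (one_le_pow₀ e7)
  have hsp : 0 < √(p : ℝ) := Real.sqrt_pos.2 hp0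
  have hex : 0 < Real.exp (2 * s0) := Real.exp_pos _
  -- the main factor
  have h5 : (p : ℝ) ^ s / √p ≤ Real.exp (2 * s0) * √(l ^ A) / P := by
    rcases le_total (p : ℝ) (P ^ 2) with h2 | h2
    · have h6 : (p : ℝ) ^ s ≤ Real.exp (2 * s0) := by
        have h6 : (p : ℝ) ^ s ≤ (P ^ 2) ^ s := Real.rpow_le_rpow hp0.le h2 hs
        refine h6.trans ?_
        rw [← hPl, ← Real.exp_nat_mul, ← Real.exp_mul]
        apply Real.exp_le_exp.2
        push_cast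
        linarith
      have h7 : P / √(l ^ A) ≤ √p := by
        have h8 : √(P ^ 2 / l ^ A) ≤ √p := Real.sqrt_le_sqrt h1
        rwa [Real.sqrt_div (by positivity), Real.sqrt_sq hP0.le] at h8
      rw [div_le_div_iff₀ hsp hP0]
      rw [div_le_iff₀ hsA] at h7
      calc (p : ℝ) ^ s * P ≤ Real.exp (2 * s0) * (√p * √(l ^ A)) :=
            mul_le_mul h6 h7 hP0.le hex.le
        _ = Real.exp (2 * s0) * √(l ^ A) * √p := by ring
    · have h6 : (p : ℝ) ^ s / √p = (p : ℝ) ^ (s - 1 / 2) := by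
        rw [Real.rpow_sub hp0, Real.sqrt_eq_rpow]
      have hs2 : s - 1 / 2 ≤ 0 := by
        have h7 : s * l ≤ 1 / 2 * l := by linarith
        have h8 := le_of_mul_le_mul_right h7 hl0
        linarith
      have h7 : (p : ℝ) ^ (s - 1 / 2) ≤ (P ^ 2) ^ (s - 1 / 2) :=
        Real.rpow_le_rpow_of_nonpos (by positivity) h2 hs2
      have h8 : (P ^ 2) ^ (s - 1 / 2) = Real.exp (2 * (s * l)) / P := by
        have hP2 : P ^ 2 = Real.exp (2 * l) := by
          rw [two_mul, Real.exp_add, hPl, sq]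
        have hP3 : Real.exp (2 * (s * l)) / P = Real.exp (2 * (s * l) - l) := by
          rw [Real.exp_sub, hPl]
        rw [hP2, hP3, ← Real.exp_mul]
        congr 1
        ring
      rw [h6]
      refine h7.trans ?_
      rw [h8]
      apply div_le_div_of_nonneg_right _ hP0.le
      calc Real.exp (2 * (s * l)) ≤ Real.exp (2 * s0) := Real.exp_le_exp.2 (by linarith)
        _ = Real.exp (2 * s0) * 1 := (mul_one _).symm
        _ ≤ Real.exp (2 * s0) * √(l ^ A) := mul_le_mul_of_nonneg_left hsA1 hex.le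
  have h8 : √(l ^ A) * l ^ 2 ≤ l ^ C := by
    apply (pow_le_pow_iff_left₀ (by positivity) hlC.le (two_ne_zero)).1
    rw [mul_pow, Real.sq_sqrt (pow_nonneg hl0.le A), ← pow_mul, ← pow_add, ← pow_mul]
    exact pow_le_pow_right₀ e7 (by omega)
  have hfac : 0 ≤ 24 * X * (p : ℝ) ^ s := by positivity
  calc κ * (24 * X * (p : ℝ) ^ s)
      ≤ (4 * k / √p) * (24 * X * (p : ℝ) ^ s) := mul_le_mul_of_nonneg_right h3 hfac
    _ = 96 * k * X * ((p : ℝ) ^ s / √p) := by ring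
    _ ≤ 96 * k * (2 * (cG * (P / l ^ C))) * (Real.exp (2 * s0) * √(l ^ A) / P) := by
        gcongr
    _ = (192 * k * cG * Real.exp (2 * s0)) * √(l ^ A) / l ^ C := by
        field_simp
        ring
    _ ≤ l * √(l ^ A) / l ^ C := by gcongr
    _ ≤ 1 / l := by
        rw [div_le_div_iff₀ hlC hl0, one_mul]
        calc l * √(l ^ A) * l = √(l ^ A) * l ^ 2 := by ring
          _ ≤ l ^ C := h8

/-- the high powers of one top prime outside `PP` -/
theorem top_hi_off (J0 : ℕ) (c τ0 : ℝ) (hc : 0 < c) (hJ0 : 8 ≤ c * J0) :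
    ∀ᶠ P : ℝ in atTop, ∀ (τ κ : ℝ) (p v : ℕ), τ ≤ τ0 / Real.log P → P ≤ p → J0 < v →
      κ ≤ (p : ℝ) ^ (-(c * v)) →
      κ * ((p ^ v : ℕ) : ℝ) ^ (2 * τ) ≤ 1 / (p : ℝ) ^ 2 * (1 / 2) ^ (v - J0) := by
  filter_upwards [ev_log_ge (4 * τ0 / c), ev_log_ge (4 / c), ev_log_ge 1,
    eventually_ge_atTop (1 : ℝ)] with P e3 e4 e7 e8
  intro τ κ p v hτ1 hpP' hv h2
  set l : ℝ := Real.log P with hl
  have hl0 : (0 : ℝ) < l := by linarith
  have hP0 : (0 : ℝ) < P := by linarith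
  have hPl : Real.exp l = P := Real.exp_log hP0
  have hp0 : (0 : ℝ) < p := by linarith
  have hp1 : (1 : ℝ) ≤ p := by linarith
  have hvr : (0 : ℝ) ≤ v := Nat.cast_nonneg _
  have hpc : (2 : ℝ) ≤ (p : ℝ) ^ (c / 4) := by
    have h3 : P ^ (c / 4) ≤ (p : ℝ) ^ (c / 4) := Real.rpow_le_rpow hP0.le hpP' (by positivity)
    refine le_trans ?_ h3
    rw [← hPl, ← Real.exp_mul]
    have h4 : 1 ≤ l * (c / 4) := by
      rw [div_le_iff₀ hc] at e4
      linarith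
    have h5 := Real.add_one_le_exp (l * (c / 4))
    linarith
  have h3 : (((p ^ v : ℕ) : ℝ)) ^ (2 * τ) ≤ (p : ℝ) ^ (c / 2 * v) := by
    rw [Nat.cast_pow, ← Real.rpow_natCast, ← Real.rpow_mul hp0.le]
    apply Real.rpow_le_rpow_of_exponent_le hp1
    have h4 : 2 * τ ≤ c / 2 := by
      rw [div_le_iff₀ hc] at e3
      have h5 : 2 * τ ≤ 2 * (τ0 / l) := by linarith
      refine h5.trans ?_
      rw [mul_div_assoc', div_le_iff₀ hl0]
      linarith
    have h5 := mul_le_mul_of_nonneg_left h4 hvr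
    linarith
  have h4 : (p : ℝ) ^ (-(c * v)) * (p : ℝ) ^ (c / 2 * v) =
      ((p : ℝ) ^ (c / 4 * v))⁻¹ * ((p : ℝ) ^ (c / 4 * v))⁻¹ := by
    rw [← Real.rpow_neg hp0.le, ← Real.rpow_add hp0, ← Real.rpow_add hp0]
    congr 1
    ring
  have h5 : (p : ℝ) ^ 2 ≤ (p : ℝ) ^ (c / 4 * v) := by
    rw [← Real.rpow_natCast (p : ℝ) 2]
    apply Real.rpow_le_rpow_of_exponent_le hp1
    have h6 : (J0 : ℝ) ≤ v := by exact_mod_cast hv.le
    have h7 : c * J0 ≤ c * v := mul_le_mul_of_nonneg_left h6 hc.le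
    push_cast
    linarith
  have h6 : (2 : ℝ) ^ (v - J0) ≤ (p : ℝ) ^ (c / 4 * v) := by
    rw [Real.rpow_mul hp0.le, Real.rpow_natCast]
    calc (2 : ℝ) ^ (v - J0) ≤ 2 ^ v := pow_le_pow_right₀ (by norm_num) (Nat.sub_le _ _)
      _ ≤ ((p : ℝ) ^ (c / 4)) ^ v := pow_le_pow_left₀ (by norm_num) hpc v
  have hq0 : 0 < (p : ℝ) ^ (c / 4 * v) := Real.rpow_pos_of_pos hp0 _
  calc κ * ((p ^ v : ℕ) : ℝ) ^ (2 * τ)
      ≤ (p : ℝ) ^ (-(c * v)) * ((p ^ v : ℕ) : ℝ) ^ (2 * τ) :=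
        mul_le_mul_of_nonneg_right h2 (Real.rpow_nonneg (Nat.cast_nonneg _) _)
    _ ≤ (p : ℝ) ^ (-(c * v)) * (p : ℝ) ^ (c / 2 * v) :=
        mul_le_mul_of_nonneg_left h3 (Real.rpow_nonneg hp0.le _)
    _ = ((p : ℝ) ^ (c / 4 * v))⁻¹ * ((p : ℝ) ^ (c / 4 * v))⁻¹ := h4
    _ ≤ ((p : ℝ) ^ 2)⁻¹ * ((2 : ℝ) ^ (v - J0))⁻¹ := by
        apply mul_le_mul (inv_anti₀ (by positivity) h5) (inv_anti₀ (by positivity) h6)
          (by positivity) (by positivity)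
    _ = 1 / (p : ℝ) ^ 2 * (1 / 2) ^ (v - J0) := by
        rw [one_div, one_div, inv_pow]

/-- **the numbers at one top prime** -/
theorem top_prime (k A C J0 : ℕ) (c cG s0 τ0 : ℝ) (hc : 0 < c) (hcG : 0 < cG)
    (hC : A + 4 ≤ 2 * C) (hJ0 : 8 ≤ c * J0) :
    ∀ᶠ P : ℝ in atTop, ∀ (X s τ : ℝ) (PP : Finset ℕ) (kw : ℕ → ℕ → ℝ) (p : ℕ), 0 ≤ X →
      X ≤ 2 * (cG * (P / Real.log P ^ C)) → 0 ≤ s → s ≤ s0 / Real.log P →
      τ ≤ τ0 / Real.log P → TopP k A c P PP kw p →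
      P ≤ p ∧
      (∀ v, 1 ≤ v → v ≤ gS PP J0 p →
        kw p v * (24 * X * ((p ^ gS PP J0 p : ℕ) : ℝ) ^ s) ≤ 1 / Real.log P) ∧
      ∀ v, gS PP J0 p < v → kw p v * ((p ^ v : ℕ) : ℝ) ^ (2 * τ) ≤
        1 / (p : ℝ) ^ 2 * (1 / 2) ^ (v - gS PP J0 p) := by
  have hJ1 : 1 ≤ J0 := by
    by_contra hcon
    have : J0 = 0 := by omega
    rw [this] at hJ0
    norm_num at hJ0
  filter_upwards [top_prime_one k A C cG (J0 * s0) hcG hC, top_hi_off J0 c τ0 hc hJ0,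
    ev_log_pow A (ε := 1) one_pos, ev_log_ge 1, eventually_ge_atTop (1 : ℝ)] with
    P e1 e3 e6 e7 e8
  intro X s τ PP kw p hX0 hX hs hs1 hτ1 hp
  have hl0 : (0 : ℝ) < Real.log P := by linarith
  have hP0 : (0 : ℝ) < P := by linarith
  have hpP' : P ≤ p := by
    refine le_trans ?_ hp.large
    rw [le_div_iff₀ (pow_pos hl0 A)]
    rw [one_mul] at e6
    calc P * Real.log P ^ A ≤ P * P := mul_le_mul_of_nonneg_left e6 hP0.le
      _ = P ^ 2 := (sq P).symm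
  have hp0 : (0 : ℝ) < p := by linarith
  have hJs : (J0 : ℝ) * s ≤ J0 * s0 / Real.log P := by
    rw [mul_div_assoc]
    exact mul_le_mul_of_nonneg_left hs1 (Nat.cast_nonneg _)
  refine ⟨hpP', ?_, ?_⟩
  · intro v hv1 _
    have h1 := e1 X (J0 * s) (4 * k / √p) p hX0 hX (mul_nonneg (Nat.cast_nonneg _) hs) hJs
      hp.large le_rfl
    have h2 : ((p ^ gS PP J0 p : ℕ) : ℝ) ^ s ≤ (p : ℝ) ^ (J0 * s) := by
      rw [Nat.cast_pow, ← Real.rpow_natCast, ← Real.rpow_mul hp0.le]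
      apply Real.rpow_le_rpow_of_exponent_le (by linarith)
      apply mul_le_mul_of_nonneg_right _ hs
      exact_mod_cast gS_le PP hJ1 p
    have h3 : 0 ≤ ((p ^ gS PP J0 p : ℕ) : ℝ) ^ s := Real.rpow_nonneg (Nat.cast_nonneg _) _
    refine le_trans ?_ h1
    calc kw p v * (24 * X * ((p ^ gS PP J0 p : ℕ) : ℝ) ^ s)
        ≤ (4 * k / √p) * (24 * X * ((p ^ gS PP J0 p : ℕ) : ℝ) ^ s) :=
          mul_le_mul_of_nonneg_right (hp.rate v hv1) (by positivity)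
      _ ≤ (4 * k / √p) * (24 * X * (p : ℝ) ^ (J0 * s)) := by gcongr
  · intro v hv
    by_cases hpP : p ∈ PP
    · have hg : gS PP J0 p = 1 := if_pos hpP
      rw [hg] at hv ⊢
      rw [hp.zero hpP v (by omega), zero_mul]
      positivity
    · have hg : gS PP J0 p = J0 := if_neg hpP
      rw [hg] at hv ⊢
      exact e3 τ (kw p v) p v hτ1 hpP' hv (hp.pow v (by omega))

end Vale.Agent.P042.H758
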