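import Vale.Agent.P042.H188.HiSum
import Vale.Agent.P042.H758.TopNum

set_option autoImplicit false

/-!
P042, S.7: all the numbers of the class sum over the moduli with top primes (target S), in the
letters of `H188/TopWt`.
-/

namespace Vale.Agent.P042.H758

open Finset Filter Vale.Agent.P042 Vale.Agent.P042.SS
open Vale.Agent.P042.H188

theorem ev_floor : ∀ᶠ P : ℝ in atTop, 2 ≤ ⌊P⌋₊ ∧ 4 / (⌊P⌋₊ : ℝ) ≤ 1 / Real.log P := by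
  filter_upwards [ev_log_pow 1 (ε := 1 / 8) (by norm_num), ev_log_ge 1,
    eventually_ge_atTop (2 : ℝ)] with P h1 h2 h3
  have hl0 : (0 : ℝ) < Real.log P := by linarith
  have hf : P - 1 < (⌊P⌋₊ : ℝ) := Nat.sub_one_lt_floor P
  have hf2 : 2 ≤ ⌊P⌋₊ := Nat.le_floor (by exact_mod_cast h3)
  have hf0 : (0 : ℝ) < (⌊P⌋₊ : ℝ) := by
    have : 0 < ⌊P⌋₊ := by omega
    exact_mod_cast this
  refine ⟨hf2, ?_⟩
  rw [div_le_div_iff₀ hf0 hl0, one_mul]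
  rw [pow_one] at h1
  linarith

/-- **all the numbers of the class sum, target S** -/
theorem num_S (k A C J0 : ℕ) (c cG τ0 th a2 : ℝ) (hc : 0 < c) (hcG : 0 < cG)
    (hth : 0 < th) (hC : A + 4 ≤ 2 * C) (hJ0 : 8 ≤ c * J0) (ha2 : J0 * a2 ≤ th / 2) :
    ∀ᶠ P : ℝ in atTop, ∃ (J : ℕ) (lam0 σ : ℝ), 1 ≤ J ∧
      cG * (P / Real.log P ^ C) ≤ 2 ^ J ∧ 0 < lam0 ∧ 4 ≤ σ * lam0 ∧
      5 * 2 ^ J * lam0 = 5 * th * P ∧ 2 ^ (J - 1) * lam0 = th / 2 * P ∧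
      0 ≤ 1 / Real.log P ∧ 1 / Real.log P ≤ 1 ∧
      ∀ (Pr PP : Finset ℕ) (kw : ℕ → ℕ → ℝ) (M0 : ℕ) (τ : ℝ) (QQ : Finset ℕ),
        (∀ p ∈ Pr, TopP k A c P PP kw p) → (∀ p j, 0 ≤ kw p j) → 0 ≤ τ →
        τ ≤ τ0 / Real.log P → (M0 : ℝ) ≤ Real.exp (a2 * P) →
        (∀ q ∈ QQ, 1 < q ∧ q ≤ M0 ∧ ∀ p ∈ q.primeFactors, p ∈ Pr) →
        (∀ p ∈ Pr, p.Prime) ∧ (∀ p ∈ Pr, 1 ≤ gS PP J0 p) ∧
        (∀ q ∈ QQ, 1 < q ∧ q ≤ M0 ∧ (∀ p ∈ q.primeFactors, p ∈ Pr) ∧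
          (spn (gS PP J0) q : ℝ) ≤ Real.exp (2 ^ (J - 1) * lam0)) ∧
        (∀ p ∈ Pr, ∀ v, 1 ≤ v → v ≤ gS PP J0 p →
          kw p v * (24 * 2 ^ J * ((p ^ gS PP J0 p : ℕ) : ℝ) ^ (τ + σ)) ≤ 1 / Real.log P) ∧
        ∑ q2 ∈ (QQ.image (hi (gS PP J0))).erase 1, kapProd kw q2 * (q2 : ℝ) ^ (2 * τ) ≤
          1 / Real.log P := by
  have hJ1 : 1 ≤ J0 := by
    by_contra hcon
    have : J0 = 0 := by omega
    rw [this] at hJ0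
    norm_num at hJ0
  filter_upwards [choose_J C cG th hcG hth (by omega),
    top_prime k A C J0 c cG (τ0 + 8 * cG / th) τ0 hc hcG hC hJ0, ev_floor,
    ev_log_ge 1, eventually_ge_atTop (0 : ℝ)] with P e1 e2 e3 e4 hP0
  obtain ⟨J, lam0, σ, hJ, hcG1, hcG2, hlam, hσl, h2J, h2J1, hσ0, hσ⟩ := e1
  have hl0 : (0 : ℝ) < Real.log P := by linarith
  refine ⟨J, lam0, σ, hJ, hcG1, hlam, hσl.ge, by rw [mul_assoc, h2J]; ring, h2J1,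
    by positivity, by rw [div_le_one hl0]; exact e4, ?_⟩
  intro Pr PP kw M0 τ QQ hPr hkw hτ hτ1 hM0 hQ
  have hs0 : 0 ≤ τ + σ := by linarith
  have hs1 : τ + σ ≤ (τ0 + 8 * cG / th) / Real.log P := by
    rw [add_div]
    exact add_le_add hτ1 hσ
  have hprime : ∀ p ∈ Pr, p.Prime := fun p hp => (hPr p hp).prime
  have hnum := fun p (hp : p ∈ Pr) => e2 (2 ^ J) (τ + σ) τ PP kw p (by positivity) hcG2 hs0 hs1
    hτ1 (hPr p hp)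
  refine ⟨hprime, fun p _ => one_le_gS PP hJ1 p, ?_, fun p hp v hv1 hv2 =>
    (hnum p hp).2.1 v hv1 hv2, ?_⟩
  · intro q hq
    obtain ⟨h1, h2, h3⟩ := hQ q hq
    refine ⟨h1, h2, h3, ?_⟩
    rw [h2J1]
    have h6 := spn_le_pow (gS PP J0) J0 q (by omega) (fun p _ => gS_le PP hJ1 p)
    have h7 : ((spn (gS PP J0) q : ℕ) : ℝ) ≤ (q : ℝ) ^ J0 := by exact_mod_cast h6
    refine h7.trans ?_
    have h8 : (q : ℝ) ≤ Real.exp (a2 * P) := le_trans (by exact_mod_cast h2) hM0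
    refine (pow_le_pow_left₀ (Nat.cast_nonneg _) h8 J0).trans ?_
    rw [← Real.exp_nat_mul]
    apply Real.exp_le_exp.2
    calc (J0 : ℝ) * (a2 * P) = J0 * a2 * P := by ring
      _ ≤ th / 2 * P := mul_le_mul_of_nonneg_right ha2 hP0
  · refine (hi_sum Pr (gS PP J0) kw τ QQ ⌊P⌋₊ hprime hkw e3.1 ?_ ?_ ?_).trans e3.2
    · intro p hp
      exact Nat.floor_le_of_le (hnum p hp).1
    · intro q hq
      exact (hQ q hq).2.2
    · intro p hp v hv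
      exact (hnum p hp).2.2 v hv

end Vale.Agent.P042.H758
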