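import Vale.Agent.P042.H419.Ctx
import Vale.Agent.P042.H944.TopKwC
import Vale.Agent.P042.H48.TopDef
import Vale.Agent.P042.H48.TopQ
import Vale.Agent.P042.H758.NumTop

set_option autoImplicit false

/-!
P042, S.7, piece (T2) of the top part: all number hypotheses of `H188.hlev_S` for the objects of
target S.
-/

namespace Vale.Agent.P042.H758

open Polynomial Finset Filter Vale.Agent.P042.SS Vale.Agent.P042.H74 Vale.Agent.P042.H739
  Vale.Agent.P042.H452 Vale.Agent.P042.H945 Vale.Agent.P042.H419 Vale.Agent.P042.H944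
  Vale.Agent.P042.H188 Vale.Agent.P042.H48.Top

/-- the exponent of the classes outside the sieve primes -/
noncomputable def J0c (c : ℝ) : ℕ := ⌈8 / c⌉₊

theorem J0c_le {c : ℝ} (hc : 0 < c) : 8 ≤ c * J0c c := by
  have h := Nat.le_ceil (8 / c)
  rw [div_le_iff₀ hc] at h
  unfold J0c
  linarith

theorem one_le_J0c {c : ℝ} (hc : 0 < c) : 1 ≤ J0c c := by
  have h := J0c_le hc
  by_contra hcon
  have h0 : J0c c = 0 := by omega
  rw [h0] at h
  norm_num at h

/-- the top primes of the frame -/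
theorem topP_of {k E A' : ℕ} {c P : ℝ} {ι : Type} {prm : ι → ℕ} {PP : Finset ℕ} {g : ℤ[X]}
    {kw : ℕ → ℕ → ℝ} {M0 p : ℕ} (HP : PrmS E A' P prm)
    (HK : KwT k c (Ts E P) PP g kw) (hp : p ∈ PrT (Ts E P) prm M0) :
    TopP k A' c P PP kw p := by
  obtain ⟨h1, h2, h3, h4⟩ := mem_PrT.1 hp
  refine ⟨h2, ?_, fun v hv => HK.one p h2 h3 v hv, fun v hv => HK.pow p h2 h3 v hv,
    fun hpP v hv => (HK.zero p hpP v hv).le.antisymm (HK.nn p v)⟩
  have h5 : Real.log P ^ E < (p : ℝ) := by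
    by_contra hcon
    apply h3
    rw [mem_Ts]
    exact ⟨h2, Nat.le_floor (not_lt.1 hcon)⟩
  by_contra hcon
  obtain ⟨i, hi⟩ := HP.all p h2 h5 (not_le.1 hcon).le
  exact h4 i hi

/-- the moduli of the top part -/
theorem top_mem {ι : Type} [Fintype ι] {T : Finset ℕ} {prm : ι → ℕ} {M0 q : ℕ}
    (hq : q ∈ (MM T prm M0).filter (fun m2 => 1 < m2)) :
    1 < q ∧ q ≤ M0 ∧ ∀ p ∈ q.primeFactors, p ∈ PrT T prm M0 := by
  rw [mem_filter] at hq
  obtain ⟨h1, h2⟩ := hq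
  unfold MM at h1
  rw [mem_filter, mem_Icc] at h1
  obtain ⟨⟨_, h3⟩, h4, h5⟩ := h1
  refine ⟨h2, h3, ?_⟩
  intro p hp
  have hpp := Nat.prime_of_mem_primeFactors hp
  have hpd := Nat.dvd_of_mem_primeFactors hp
  rw [mem_PrT]
  refine ⟨(Nat.le_of_dvd (by omega) hpd).trans h3, hpp, fun h => h4 p h hpd, ?_⟩
  intro i hi
  exact h5 i (hi ▸ hpd)


/-- the entropy of the weight relative to the class modulo `qn` -/
theorem log_size (B E C : ℕ) :
    ∀ᶠ P : ℝ in atTop, ∀ (qn N' M : ℕ), 1 ≤ qn → 1 ≤ M → M ≤ N' →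
      (qn : ℝ) ≤ (B : ℝ) ^ 2 * Real.exp (Real.log 4 * Real.log P ^ E) →
      Real.log (Real.exp (50 * (P / Real.log P ^ C) + 1) * (M / ((N' : ℝ) / qn))) ≤
        60 * (P / Real.log P ^ C) := by
  have h4 : 0 < Real.log 4 := Real.log_pos (by norm_num)
  filter_upwards [ev_log_pow (E + C) (ε := 1 / Real.log 4) (by positivity),
    ev_log_pow C (ε := 1 / (1 + |Real.log ((B : ℝ) ^ 2)|)) (by positivity), ev_log_ge 1,
    eventually_ge_atTop (1 : ℝ)] with P e1 e2 e3 e4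
  intro qn N' M hqn hM hMN hq
  have hl0 : (0 : ℝ) < Real.log P := by linarith
  have hlC : (0 : ℝ) < Real.log P ^ C := pow_pos hl0 C
  have hqr : (1 : ℝ) ≤ qn := by exact_mod_cast hqn
  have hMr : (1 : ℝ) ≤ M := by exact_mod_cast hM
  have hNr : (M : ℝ) ≤ N' := by exact_mod_cast hMN
  have hN0 : (0 : ℝ) < N' := by linarith
  have h1 : Real.log 4 * Real.log P ^ E ≤ P / Real.log P ^ C := by
    rw [le_div_iff₀ hlC]
    rw [pow_add] at e1
    have h2 := mul_le_mul_of_nonneg_left e1 h4.le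
    have h3 : Real.log 4 * (1 / Real.log 4 * P) = P := by field_simp
    rw [h3] at h2
    linarith
  have h2 : 1 + |Real.log ((B : ℝ) ^ 2)| ≤ P / Real.log P ^ C := by
    rw [le_div_iff₀ hlC]
    have h3 : (0 : ℝ) < 1 + |Real.log ((B : ℝ) ^ 2)| := by positivity
    have h5 := mul_le_mul_of_nonneg_left e2 h3.le
    have h6 : (1 + |Real.log ((B : ℝ) ^ 2)|) * (1 / (1 + |Real.log ((B : ℝ) ^ 2)|) * P) = P := by
      field_simp
    rw [h6] at h5
    linarith
  have h3 : (M : ℝ) / ((N' : ℝ) / qn) ≤ qn := by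
    rw [div_le_iff₀ (by positivity)]
    have h5 : (qn : ℝ) * ((N' : ℝ) / qn) = N' := by field_simp
    rw [h5]
    exact hNr
  have hB0 : (B : ℝ) ^ 2 ≠ 0 := by
    intro h0
    rw [h0, zero_mul] at hq
    linarith
  have h5 : Real.log qn ≤ Real.log ((B : ℝ) ^ 2) + Real.log 4 * Real.log P ^ E := by
    have h6 := Real.log_le_log (by linarith) hq
    rwa [Real.log_mul hB0 (Real.exp_pos _).ne', Real.log_exp] at h6
  have h6 : (0 : ℝ) < M / ((N' : ℝ) / qn) := by positivity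
  rw [Real.log_mul (Real.exp_pos _).ne' h6.ne', Real.log_exp]
  have h7 := Real.log_le_log h6 h3
  have h8 := le_abs_self (Real.log ((B : ℝ) ^ 2))
  have h9 : 0 ≤ P / Real.log P ^ C := by positivity
  linarith

/-- **(T2): all number hypotheses of `hlev_S`** for the objects of target S -/
theorem num_T (k R E A' C : ℕ) (c κ th : ℝ) (hc : 0 < c) (hκ : 0 < κ) (hth : 0 < th)
    (hC : A' + 4 ≤ 2 * C) :
    ∃ P0 : ℝ, ∀ P : ℝ, P0 ≤ P → ∃ (J : ℕ) (lam0 σ : ℝ), 1 ≤ J ∧ 0 < lam0 ∧ 4 ≤ σ * lam0 ∧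
      5 * 2 ^ J * lam0 = 5 * th * P ∧ 2 ^ (J - 1) * lam0 = th / 2 * P ∧
      0 ≤ 1 / Real.log P ∧ 1 / Real.log P ≤ 1 ∧
      (∀ (qn N' M : ℕ), 1 ≤ qn → 1 ≤ M → M ≤ N' →
        (qn : ℝ) ≤ (sfac k * R : ℝ) ^ 2 * Real.exp (Real.log 4 * Real.log P ^ E) →
        Real.log (Real.exp (50 * (P / Real.log P ^ C) + 1) * (M / ((N' : ℝ) / qn))) ≤ 2 ^ J) ∧
      ∀ (ι : Type) [Fintype ι] (prm : ι → ℕ) (PP : Finset ℕ) (g : ℤ[X]) (kw : ℕ → ℕ → ℝ)
        (M0 m : ℕ), PrmS E A' P prm → KwT k c (Ts E P) PP g kw →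
        (M0 : ℝ) ≤ Real.exp (P / Real.log P ^ 2) → Real.log P ≤ m →
        0 ≤ tauS k κ C P + 2 / m ∧
        (∀ p ∈ PrT (Ts E P) prm M0, p.Prime) ∧
        (∀ p ∈ PrT (Ts E P) prm M0, 1 ≤ gS PP (J0c c) p) ∧
        (∀ q ∈ (MM (Ts E P) prm M0).filter (fun m2 => 1 < m2), 1 < q ∧ q ≤ M0 ∧
          (∀ p ∈ q.primeFactors, p ∈ PrT (Ts E P) prm M0) ∧
          (spn (gS PP (J0c c)) q : ℝ) ≤ Real.exp (2 ^ (J - 1) * lam0)) ∧
        (∀ p ∈ PrT (Ts E P) prm M0, ∀ v, 1 ≤ v → v ≤ gS PP (J0c c) p →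
          kw p v * (24 * 2 ^ J * ((p ^ gS PP (J0c c) p : ℕ) : ℝ) ^ (tauS k κ C P + 2 / m + σ)) ≤
            1 / Real.log P) ∧
        ∑ q2 ∈ (((MM (Ts E P) prm M0).filter (fun m2 => 1 < m2)).image
            (hi (gS PP (J0c c)))).erase 1,
          kapProd kw q2 * (q2 : ℝ) ^ (2 * (tauS k κ C P + 2 / m)) ≤ 1 / Real.log P := by
  have hJ0 := J0c_le hc
  have hJ1 : (0 : ℝ) < J0c c := by
    have := one_le_J0c hc
    exact_mod_cast this
  have hC1 : 1 ≤ C := by omega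
  have hmain := num_S k A' C (J0c c) c 60 (12 * k / κ + 2) th (th / (2 * J0c c)) hc
    (by norm_num) hth hC hJ0 (by rw [← le_div_iff₀' hJ1, div_div])
  obtain ⟨P0, hP0⟩ := eventually_atTop.1 (hmain.and ((log_size (sfac k * R) E C).and
    ((ev_log_ge 1).and ((ev_log_ge (2 * J0c c / th)).and (eventually_ge_atTop (1 : ℝ))))))
  refine ⟨P0, fun P hP => ?_⟩
  obtain ⟨e1, e2, e3, e4, e5⟩ := hP0 P hP
  obtain ⟨J, lam0, σ, hJ, hJ2, hlam, hσ, h5, h6, h7, h8, hall⟩ := e1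
  have hl0 : (0 : ℝ) < Real.log P := by linarith
  refine ⟨J, lam0, σ, hJ, hlam, hσ, h5, h6, h7, h8, ?_, ?_⟩
  · intro qn N' M hqn hM hMN hq
    refine (e2 qn N' M hqn hM hMN ?_).trans hJ2
    push_cast
    exact hq
  · intro ι _ prm PP g kw M0 m HP HK hM0 hm
    have hm0 : (0 : ℝ) < m := by linarith
    have hlC : (0 : ℝ) < Real.log P ^ C := pow_pos hl0 C
    have hτ0 : 0 ≤ tauS k κ C P := by
      unfold tauS etaS
      positivity
    have hτ : 0 ≤ tauS k κ C P + 2 / m := by positivity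
    have hτ1 : tauS k κ C P + 2 / m ≤ (12 * k / κ + 2) / Real.log P := by
      rw [add_div]
      apply add_le_add
      · unfold tauS etaS
        have h9 : Real.log P ≤ Real.log P ^ C := by
          calc Real.log P = Real.log P ^ 1 := (pow_one _).symm
            _ ≤ Real.log P ^ C := pow_le_pow_right₀ e3 hC1
        have h10 : 2 * (k : ℝ) * (6 / (κ * Real.log P ^ C)) =
            12 * k / κ / Real.log P ^ C := by
          field_simp
          ring
        rw [h10]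
        gcongr
      · gcongr
    have hM0' : (M0 : ℝ) ≤ Real.exp (th / (2 * J0c c) * P) := by
      refine hM0.trans (Real.exp_le_exp.2 ?_)
      rw [div_le_iff₀ (pow_pos hl0 2)]
      have h9 : 2 * (J0c c : ℝ) / th ≤ Real.log P ^ 2 := by
        calc 2 * (J0c c : ℝ) / th ≤ Real.log P := e4
          _ = Real.log P ^ 1 := (pow_one _).symm
          _ ≤ Real.log P ^ 2 := pow_le_pow_right₀ e3 (by norm_num)
      have h10 : 1 ≤ th / (2 * J0c c) * Real.log P ^ 2 := by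
        rw [div_le_iff₀ hth] at h9
        rw [div_mul_eq_mul_div, le_div_iff₀ (by positivity)]
        linarith
      calc P = 1 * P := (one_mul P).symm
        _ ≤ (th / (2 * J0c c) * Real.log P ^ 2) * P :=
          mul_le_mul_of_nonneg_right h10 (by linarith)
        _ = th / (2 * J0c c) * P * Real.log P ^ 2 := by ring
    obtain ⟨g1, g2, g3, g4, g5⟩ := hall (PrT (Ts E P) prm M0) PP kw M0 (tauS k κ C P + 2 / m)
      ((MM (Ts E P) prm M0).filter (fun m2 => 1 < m2)) (fun p hp => topP_of HP HK hp) HK.nn hτ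
      hτ1 hM0' (fun q hq => top_mem hq)
    exact ⟨hτ, g1, g2, g3, g4, g5⟩

end Vale.Agent.P042.H758
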