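import Vale.Agent.P042.SS.ANHolds

set_option autoImplicit false

/-!
P042, block [D]: the circle method for ONE pair of windows (`AN1`).

From the pointwise bound `‖Sx θ - Mn θ‖ ≤ δ` (tent kernel `vt`), for two arbitrary weights
supported in two short intervals whose differences lie in the linear range of the tent.
-/

namespace Vale.Agent.P042.H758

open Polynomial Finset Vale.Agent.P042.SS Vale.Agent.P042.SS.AN

/-- Fourier transform of a complex weight on a finite set -/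
noncomputable def Ft (g : ℤ → ℂ) (s : Finset ℤ) (θ : ℝ) : ℂ :=
  ∑ n ∈ s, g n * e (-((n : ℝ) * θ))

theorem Fw_eq_Ft (G : ℤ → ℝ) (y : ℤ) (M : ℕ) (θ : ℝ) :
    Fw G y M θ = Ft (fun n => (G n : ℂ)) (Ioc y (y + M)) θ := rfl

theorem Ft_mul_conj (g1 g2 : ℤ → ℂ) (s1 s2 : Finset ℤ) (θ : ℝ) :
    Ft g1 s1 θ * (starRingEnd ℂ) (Ft g2 s2 θ) =
      ∑ n ∈ s1, ∑ m ∈ s2, (g1 n * (starRingEnd ℂ) (g2 m)) * e (((m - n : ℤ) : ℝ) * θ) := by
  unfold Ft
  rw [map_sum, Finset.sum_mul_sum]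
  refine Finset.sum_congr rfl fun n _ => Finset.sum_congr rfl fun m _ => ?_
  rw [map_mul, e_conj]
  calc g1 n * e (-((n : ℝ) * θ)) * ((starRingEnd ℂ) (g2 m) * e (-(-((m : ℝ) * θ))))
      = (g1 n * (starRingEnd ℂ) (g2 m)) * (e (-((n : ℝ) * θ)) * e (-(-((m : ℝ) * θ)))) := by ring
    _ = _ := by
      rw [← e_add]
      congr 2
      push_cast
      ring

/-- correlation at frequency `k` -/
theorem corr2 {g1 g2 : ℤ → ℂ} {s1 s2 : Finset ℤ} {T : ℕ} (hT : 0 < T) (k : ℤ)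
    (hk : ∀ n ∈ s1, ∀ m ∈ s2, |k + m - n| < T) :
    ∑ j ∈ range T, e (k * ((j : ℝ) / T)) *
      (Ft g1 s1 ((j : ℝ) / T) * (starRingEnd ℂ) (Ft g2 s2 ((j : ℝ) / T))) =
      T * ∑ n ∈ s1, ∑ m ∈ s2, if n - m = k then g1 n * (starRingEnd ℂ) (g2 m) else 0 := by
  have h1 : ∀ j ∈ range T, e (k * ((j : ℝ) / T)) *
      (Ft g1 s1 ((j : ℝ) / T) * (starRingEnd ℂ) (Ft g2 s2 ((j : ℝ) / T))) =
      ∑ n ∈ s1, ∑ m ∈ s2, (g1 n * (starRingEnd ℂ) (g2 m)) *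
        e (((k + m - n : ℤ) : ℝ) * ((j : ℝ) / T)) := by
    intro j _
    rw [Ft_mul_conj, Finset.mul_sum]
    refine Finset.sum_congr rfl fun n _ => ?_
    rw [Finset.mul_sum]
    refine Finset.sum_congr rfl fun m _ => ?_
    calc e (k * ((j : ℝ) / T)) *
          ((g1 n * (starRingEnd ℂ) (g2 m)) * e (((m - n : ℤ) : ℝ) * ((j : ℝ) / T)))
        = (g1 n * (starRingEnd ℂ) (g2 m)) *
          (e (k * ((j : ℝ) / T)) * e (((m - n : ℤ) : ℝ) * ((j : ℝ) / T))) := by ring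
      _ = _ := by
        rw [← e_add]
        congr 2
        push_cast
        ring
  rw [Finset.sum_congr rfl h1, Finset.sum_comm, Finset.mul_sum]
  refine Finset.sum_congr rfl fun n hn => ?_
  rw [Finset.sum_comm, Finset.mul_sum]
  refine Finset.sum_congr rfl fun m hm => ?_
  rw [← Finset.mul_sum, SS.AN.orth T hT]
  have h3 : (T : ℤ) ∣ (k + m - n) ↔ n - m = k := by
    constructor
    · intro hd
      have h5 := Int.eq_zero_of_abs_lt_dvd hd (hk n hn m hm)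
      omega
    · intro h4
      have : k + m - n = 0 := by omega
      rw [this]
      exact dvd_zero _
  by_cases h4 : n - m = k
  · rw [if_pos (h3.2 h4), if_pos h4]
    ring
  · rw [if_neg (fun h => h4 (h3.1 h)), if_neg h4]
    ring

theorem parseval2 {g : ℤ → ℂ} {s : Finset ℤ} {T : ℕ} (hT : 0 < T)
    (hk : ∀ n ∈ s, ∀ m ∈ s, |m - n| < T) :
    ∑ j ∈ range T, ‖Ft g s ((j : ℝ) / T)‖ ^ 2 = T * ∑ n ∈ s, ‖g n‖ ^ 2 := by
  have h := corr2 (g1 := g) (g2 := g) (s1 := s) (s2 := s) hT 0 (by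
    intro n hn m hm
    rw [zero_add]
    exact hk n hn m hm)
  have h1 : ∀ j ∈ range T, e (((0 : ℤ) : ℝ) * ((j : ℝ) / T)) *
      (Ft g s ((j : ℝ) / T) * (starRingEnd ℂ) (Ft g s ((j : ℝ) / T))) =
      ((‖Ft g s ((j : ℝ) / T)‖ ^ 2 : ℝ) : ℂ) := by
    intro j _
    rw [Int.cast_zero, zero_mul, e_zero, one_mul, Complex.mul_conj, Complex.normSq_eq_norm_sq]
  have h2 : ∀ n ∈ s, (∑ m ∈ s, if n - m = 0 then g n * (starRingEnd ℂ) (g m) else 0) =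
      ((‖g n‖ ^ 2 : ℝ) : ℂ) := by
    intro n hn
    rw [Finset.sum_eq_single n]
    · rw [if_pos (sub_self n), Complex.mul_conj, Complex.normSq_eq_norm_sq]
    · intro m _ hm
      rw [if_neg]
      intro h0
      exact hm (by omega)
    · intro h0
      exact absurd hn h0
  rw [Finset.sum_congr rfl h1, Finset.sum_congr rfl h2] at h
  exact_mod_cast h

/-- the kernel of the main term -/
noncomputable def Kn (f : ℤ[X]) (Q : ℕ) (u : ℤ) : ℂ :=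
  ∑ q ∈ Icc 1 Q, ∑ a ∈ (range q).filter (Nat.Coprime q),
    Gam f a q * e (-((u : ℝ) * ((a : ℝ) / q)))

/-- the bilinear form with kernel `Kn` and an extra weight `w(n-m)` -/
noncomputable def Bf (f : ℤ[X]) (Q : ℕ) (w : ℤ → ℂ) (g1 g2 : ℤ → ℂ) (s1 s2 : Finset ℤ) : ℂ :=
  ∑ n ∈ s1, ∑ m ∈ s2, g1 n * (starRingEnd ℂ) (g2 m) * (w (n - m) * Kn f Q (n - m))

theorem Bf_one (f : ℤ[X]) (Q : ℕ) (g1 g2 : ℤ → ℂ) (s1 s2 : Finset ℤ) :
    Bf f Q (fun _ => 1) g1 g2 s1 s2 =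
      ∑ q ∈ Icc 1 Q, ∑ a ∈ (range q).filter (Nat.Coprime q),
        Gam f a q * (Ft g1 s1 ((a : ℝ) / q) * (starRingEnd ℂ) (Ft g2 s2 ((a : ℝ) / q))) := by
  have h1 : ∀ q ∈ Icc 1 Q, ∑ a ∈ (range q).filter (Nat.Coprime q),
      Gam f a q * (Ft g1 s1 ((a : ℝ) / q) * (starRingEnd ℂ) (Ft g2 s2 ((a : ℝ) / q))) =
      ∑ n ∈ s1, ∑ m ∈ s2, ∑ a ∈ (range q).filter (Nat.Coprime q),
        g1 n * (starRingEnd ℂ) (g2 m) *
          (Gam f a q * e (-(((n - m : ℤ) : ℝ) * ((a : ℝ) / q)))) := by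
    intro q _
    have h2 : ∀ a ∈ (range q).filter (Nat.Coprime q),
        Gam f a q * (Ft g1 s1 ((a : ℝ) / q) * (starRingEnd ℂ) (Ft g2 s2 ((a : ℝ) / q))) =
        ∑ n ∈ s1, ∑ m ∈ s2, g1 n * (starRingEnd ℂ) (g2 m) *
          (Gam f a q * e (-(((n - m : ℤ) : ℝ) * ((a : ℝ) / q)))) := by
      intro a _
      rw [Ft_mul_conj, Finset.mul_sum]
      refine Finset.sum_congr rfl fun n _ => ?_
      rw [Finset.mul_sum]
      refine Finset.sum_congr rfl fun m _ => ?_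
      have h3 : ((m - n : ℤ) : ℝ) * ((a : ℝ) / q) = -(((n - m : ℤ) : ℝ) * ((a : ℝ) / q)) := by
        push_cast
        ring
      rw [h3]
      ring
    rw [Finset.sum_congr rfl h2, Finset.sum_comm]
    refine Finset.sum_congr rfl fun n _ => ?_
    rw [Finset.sum_comm]
  rw [Finset.sum_congr rfl h1, Finset.sum_comm]
  unfold Bf
  refine Finset.sum_congr rfl fun n _ => ?_
  rw [Finset.sum_comm]
  refine Finset.sum_congr rfl fun m _ => ?_
  unfold Kn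
  rw [one_mul, Finset.mul_sum]
  refine Finset.sum_congr rfl fun q _ => ?_
  rw [Finset.mul_sum]

/-- the Weyl sum side vanishes -/
theorem side_S2 {f : ℤ[X]} {H x0 X T : ℕ} {g1 g2 : ℤ → ℂ} {s1 s2 : Finset ℤ} (hx0 : 1 ≤ x0)
    (hT : 0 < T)
    (hfree : ∀ n ∈ s1, ∀ m ∈ s2, g1 n ≠ 0 → g2 m ≠ 0 → ∀ x : ℕ, 1 ≤ x →
      n - m ≠ f.eval (x : ℤ))
    (hTx : ∀ x ∈ Ico x0 X, ∀ n ∈ s1, ∀ m ∈ s2, |fv f x + m - n| < T) :
    ∑ j ∈ range T, Sx f H x0 X ((j : ℝ) / T) *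
      (Ft g1 s1 ((j : ℝ) / T) * (starRingEnd ℂ) (Ft g2 s2 ((j : ℝ) / T))) = 0 := by
  unfold Sx
  simp only [Finset.sum_mul]
  rw [Finset.sum_comm]
  apply Finset.sum_eq_zero
  intro x hx
  have h1 : ∀ j ∈ range T, ((gp f x * vt H (fv f x) : ℝ) : ℂ) *
      e ((j : ℝ) / T * (fv f x : ℝ)) *
      (Ft g1 s1 ((j : ℝ) / T) * (starRingEnd ℂ) (Ft g2 s2 ((j : ℝ) / T))) =
      ((gp f x * vt H (fv f x) : ℝ) : ℂ) *
        (e ((fv f x : ℝ) * ((j : ℝ) / T)) *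
        (Ft g1 s1 ((j : ℝ) / T) * (starRingEnd ℂ) (Ft g2 s2 ((j : ℝ) / T)))) := by
    intro j _
    rw [mul_comm ((j : ℝ) / T), mul_assoc]
  rw [Finset.sum_congr rfl h1, ← Finset.mul_sum, corr2 hT _ (hTx x hx)]
  have hR : ∑ n ∈ s1, ∑ m ∈ s2, (if n - m = fv f x then g1 n * (starRingEnd ℂ) (g2 m) else 0) =
      0 := by
    apply Finset.sum_eq_zero
    intro n hn
    apply Finset.sum_eq_zero
    intro m hm
    split_ifs with h
    · by_contra hne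
      rw [mul_eq_zero, not_or] at hne
      have hx1 : 1 ≤ x := hx0.trans (Finset.mem_Ico.1 hx).1
      refine hfree n hn m hm hne.1 ?_ x hx1 ?_
      · intro h0
        exact hne.2 (by rw [h0, map_zero])
      · rw [h]
        rfl
    · rfl
  rw [hR]
  simp

/-- the kernel side is the bilinear form -/
theorem side_V2 {f : ℤ[X]} {H Q T : ℕ} {g1 g2 : ℤ → ℂ} {s1 s2 : Finset ℤ} (hH : 1 ≤ H)
    (hT : 0 < T)
    (hTk : ∀ k ∈ Ico (0 : ℤ) (4 * H + 1), ∀ n ∈ s1, ∀ m ∈ s2, |k + m - n| < T) :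
    ∑ j ∈ range T, Mn f H Q ((j : ℝ) / T) *
      (Ft g1 s1 ((j : ℝ) / T) * (starRingEnd ℂ) (Ft g2 s2 ((j : ℝ) / T))) =
      T * Bf f Q (fun u => (vt H u : ℂ)) g1 g2 s1 s2 := by
  obtain ⟨-, -, -, hlow, hhigh, hVk, -, -, -⟩ := vt_holds H hH
  -- one frequency
  have hone : ∀ θ : ℝ, ∑ j ∈ range T, Vk H ((j : ℝ) / T - θ) *
      (Ft g1 s1 ((j : ℝ) / T) * (starRingEnd ℂ) (Ft g2 s2 ((j : ℝ) / T))) =
      T * ∑ n ∈ s1, ∑ m ∈ s2, g1 n * (starRingEnd ℂ) (g2 m) *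
        ((vt H (n - m) : ℂ) * e (-(((n - m : ℤ) : ℝ) * θ))) := by
    intro θ
    have h1 : ∀ j ∈ range T, Vk H ((j : ℝ) / T - θ) *
        (Ft g1 s1 ((j : ℝ) / T) * (starRingEnd ℂ) (Ft g2 s2 ((j : ℝ) / T))) =
        ∑ k ∈ Ico (0 : ℤ) (4 * H + 1), ((vt H k : ℂ) * e (-((k : ℝ) * θ))) *
          (e (k * ((j : ℝ) / T)) *
          (Ft g1 s1 ((j : ℝ) / T) * (starRingEnd ℂ) (Ft g2 s2 ((j : ℝ) / T)))) := by
      intro j _
      rw [hVk 0 (4 * (H : ℤ) + 1) _ (by positivity) (by omega), Finset.sum_mul]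
      refine Finset.sum_congr rfl fun k _ => ?_
      have h2 : e (((j : ℝ) / T - θ) * (k : ℝ)) = e (-((k : ℝ) * θ)) * e (k * ((j : ℝ) / T)) := by
        rw [← e_add]
        congr 1
        ring
      rw [h2]
      ring
    rw [Finset.sum_congr rfl h1, Finset.sum_comm]
    have h3 : ∀ k ∈ Ico (0 : ℤ) (4 * H + 1), ∑ j ∈ range T,
        ((vt H k : ℂ) * e (-((k : ℝ) * θ))) * (e (k * ((j : ℝ) / T)) *
          (Ft g1 s1 ((j : ℝ) / T) * (starRingEnd ℂ) (Ft g2 s2 ((j : ℝ) / T)))) =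
        ∑ n ∈ s1, ∑ m ∈ s2, T * (if n - m = k then
          (vt H k : ℂ) * e (-((k : ℝ) * θ)) * (g1 n * (starRingEnd ℂ) (g2 m)) else 0) := by
      intro k hk
      rw [← Finset.mul_sum, corr2 hT k (hTk k hk), Finset.mul_sum, Finset.mul_sum]
      refine Finset.sum_congr rfl fun n _ => ?_
      rw [Finset.mul_sum, Finset.mul_sum]
      refine Finset.sum_congr rfl fun m _ => ?_
      split_ifs
      · ring
      · ring
    rw [Finset.sum_congr rfl h3, Finset.sum_comm, Finset.mul_sum]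
    refine Finset.sum_congr rfl fun n _ => ?_
    rw [Finset.sum_comm, Finset.mul_sum]
    refine Finset.sum_congr rfl fun m _ => ?_
    rw [← Finset.mul_sum, Finset.sum_ite_eq]
    split_ifs with h4
    · ring
    · have h5 : vt H (n - m) = 0 := by
        rw [Finset.mem_Ico, not_and_or, not_le, not_lt] at h4
        rcases h4 with h4 | h4
        · exact hlow _ (by omega)
        · exact hhigh _ (by omega)
      rw [h5]
      simp
  unfold Mn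
  simp only [Finset.sum_mul]
  rw [Finset.sum_comm]
  have h6 : ∀ q ∈ Icc 1 Q, ∑ j ∈ range T, ∑ a ∈ (range q).filter (Nat.Coprime q),
      Gam f a q * Vk H ((j : ℝ) / T - (a : ℝ) / q) *
        (Ft g1 s1 ((j : ℝ) / T) * (starRingEnd ℂ) (Ft g2 s2 ((j : ℝ) / T))) =
      ∑ a ∈ (range q).filter (Nat.Coprime q), ∑ n ∈ s1, ∑ m ∈ s2,
        (T : ℂ) * (g1 n * (starRingEnd ℂ) (g2 m) * ((vt H (n - m) : ℂ) *
          (Gam f a q * e (-(((n - m : ℤ) : ℝ) * ((a : ℝ) / q)))))) := by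
    intro q _
    rw [Finset.sum_comm]
    refine Finset.sum_congr rfl fun a _ => ?_
    simp only [mul_assoc]
    rw [← Finset.mul_sum]
    have h7 := hone ((a : ℝ) / q)
    rw [h7, Finset.mul_sum, Finset.mul_sum]
    refine Finset.sum_congr rfl fun n _ => ?_
    rw [Finset.mul_sum, Finset.mul_sum]
    refine Finset.sum_congr rfl fun m _ => ?_
    ring
  rw [Finset.sum_congr rfl h6]
  unfold Bf Kn
  rw [Finset.mul_sum]
  have h8 : ∀ n ∈ s1, (T : ℂ) * ∑ m ∈ s2, g1 n * (starRingEnd ℂ) (g2 m) *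
      ((vt H (n - m) : ℂ) * ∑ q ∈ Icc 1 Q, ∑ a ∈ (range q).filter (Nat.Coprime q),
        Gam f a q * e (-(((n - m : ℤ) : ℝ) * ((a : ℝ) / q)))) =
      ∑ q ∈ Icc 1 Q, ∑ a ∈ (range q).filter (Nat.Coprime q), ∑ m ∈ s2,
        (T : ℂ) * (g1 n * (starRingEnd ℂ) (g2 m) * ((vt H (n - m) : ℂ) *
          (Gam f a q * e (-(((n - m : ℤ) : ℝ) * ((a : ℝ) / q)))))) := by
    intro n _
    rw [Finset.mul_sum]
    have h9 : ∀ m ∈ s2, (T : ℂ) * (g1 n * (starRingEnd ℂ) (g2 m) *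
      ((vt H (n - m) : ℂ) * ∑ q ∈ Icc 1 Q, ∑ a ∈ (range q).filter (Nat.Coprime q),
        Gam f a q * e (-(((n - m : ℤ) : ℝ) * ((a : ℝ) / q))))) =
        ∑ q ∈ Icc 1 Q, ∑ a ∈ (range q).filter (Nat.Coprime q),
        (T : ℂ) * (g1 n * (starRingEnd ℂ) (g2 m) * ((vt H (n - m) : ℂ) *
          (Gam f a q * e (-(((n - m : ℤ) : ℝ) * ((a : ℝ) / q)))))) := by
      intro m _
      rw [Finset.mul_sum, Finset.mul_sum, Finset.mul_sum]
      refine Finset.sum_congr rfl fun q _ => ?_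
      rw [Finset.mul_sum, Finset.mul_sum, Finset.mul_sum]
    rw [Finset.sum_congr rfl h9, Finset.sum_comm]
    refine Finset.sum_congr rfl fun q _ => ?_
    rw [Finset.sum_comm]
  rw [Finset.sum_congr rfl h8, Finset.sum_comm]
  refine Finset.sum_congr rfl fun q _ => ?_
  rw [Finset.sum_comm]

/-- the tented form is small -/
theorem tent_small {f : ℤ[X]} {H Q x0 X : ℕ} {δ : ℝ} {g1 g2 : ℤ → ℂ} {s1 s2 : Finset ℤ}
    (hH : 1 ≤ H) (hx0 : 1 ≤ x0) (hδ : 0 ≤ δ)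
    (hfree : ∀ n ∈ s1, ∀ m ∈ s2, g1 n ≠ 0 → g2 m ≠ 0 → ∀ x : ℕ, 1 ≤ x →
      n - m ≠ f.eval (x : ℤ))
    (hpt : ∀ θ : ℝ, ‖Sx f H x0 X θ - Mn f H Q θ‖ ≤ δ) :
    ‖Bf f Q (fun u => (vt H u : ℂ)) g1 g2 s1 s2‖ ≤
      δ * (√(∑ n ∈ s1, ‖g1 n‖ ^ 2) * √(∑ n ∈ s2, ‖g2 n‖ ^ 2)) := by
  -- a large modulus
  set S1 : ℕ := ∑ n ∈ s1, n.natAbs with hS1
  set S2 : ℕ := ∑ n ∈ s2, n.natAbs with hS2
  set T : ℕ := 2 * S1 + 2 * S2 + 4 * H + ∑ x ∈ Ico x0 X, (fv f x).natAbs + 2 with hTdef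
  have hT : 0 < T := by omega
  have hTr : (0 : ℝ) < T := by exact_mod_cast hT
  have hs1 : ∀ n ∈ s1, n.natAbs ≤ S1 := fun n hn =>
    Finset.single_le_sum (f := fun n : ℤ => n.natAbs) (fun _ _ => Nat.zero_le _) hn
  have hs2 : ∀ n ∈ s2, n.natAbs ≤ S2 := fun n hn =>
    Finset.single_le_sum (f := fun n : ℤ => n.natAbs) (fun _ _ => Nat.zero_le _) hn
  have hTx : ∀ x ∈ Ico x0 X, ∀ n ∈ s1, ∀ m ∈ s2, |fv f x + m - n| < T := by
    intro x hx n hn m hm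
    have h1 : (fv f x).natAbs ≤ ∑ x ∈ Ico x0 X, (fv f x).natAbs :=
      Finset.single_le_sum (f := fun x => (fv f x).natAbs) (fun _ _ => Nat.zero_le _) hx
    have h2 := hs1 n hn
    have h3 := hs2 m hm
    rw [abs_lt]
    constructor <;> omega
  have hTk : ∀ k ∈ Ico (0 : ℤ) (4 * H + 1), ∀ n ∈ s1, ∀ m ∈ s2, |k + m - n| < T := by
    intro k hk n hn m hm
    rw [Finset.mem_Ico] at hk
    have h2 := hs1 n hn
    have h3 := hs2 m hm
    rw [abs_lt]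
    constructor <;> omega
  have hS := side_S2 (H := H) (X := X) (T := T) (g1 := g1) (g2 := g2) hx0 hT hfree hTx
  have hV := side_V2 (f := f) (H := H) (Q := Q) (T := T) (g1 := g1) (g2 := g2) hH hT hTk
  have hdiff : ∑ j ∈ range T, (Sx f H x0 X ((j : ℝ) / T) - Mn f H Q ((j : ℝ) / T)) *
      (Ft g1 s1 ((j : ℝ) / T) * (starRingEnd ℂ) (Ft g2 s2 ((j : ℝ) / T))) =
      -(T * Bf f Q (fun u => (vt H u : ℂ)) g1 g2 s1 s2) := by
    simp only [sub_mul]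
    rw [Finset.sum_sub_distrib, hS, hV, zero_sub]
  have hp1 := parseval2 (g := g1) (s := s1) (T := T) hT (by
    intro n hn m hm
    have h2 := hs1 n hn
    have h3 := hs1 m hm
    rw [abs_lt]
    constructor <;> omega)
  have hp2 := parseval2 (g := g2) (s := s2) (T := T) hT (by
    intro n hn m hm
    have h2 := hs2 n hn
    have h3 := hs2 m hm
    rw [abs_lt]
    constructor <;> omega)
  have hnorm : ‖∑ j ∈ range T, (Sx f H x0 X ((j : ℝ) / T) - Mn f H Q ((j : ℝ) / T)) *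
      (Ft g1 s1 ((j : ℝ) / T) * (starRingEnd ℂ) (Ft g2 s2 ((j : ℝ) / T)))‖ ≤
      δ * (√(T * ∑ n ∈ s1, ‖g1 n‖ ^ 2) * √(T * ∑ n ∈ s2, ‖g2 n‖ ^ 2)) := by
    rw [← hp1, ← hp2]
    calc ‖∑ j ∈ range T, (Sx f H x0 X ((j : ℝ) / T) - Mn f H Q ((j : ℝ) / T)) *
          (Ft g1 s1 ((j : ℝ) / T) * (starRingEnd ℂ) (Ft g2 s2 ((j : ℝ) / T)))‖
        ≤ ∑ j ∈ range T, δ * (‖Ft g1 s1 ((j : ℝ) / T)‖ * ‖Ft g2 s2 ((j : ℝ) / T)‖) := by
          refine (norm_sum_le _ _).trans (Finset.sum_le_sum fun j _ => ?_)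
          rw [norm_mul, norm_mul, RCLike.norm_conj]
          exact mul_le_mul_of_nonneg_right (hpt _) (by positivity)
      _ ≤ _ := by
          rw [← Finset.mul_sum]
          exact mul_le_mul_of_nonneg_left (Real.sum_mul_le_sqrt_mul_sqrt _ _ _) hδ
  rw [hdiff, norm_neg, norm_mul, Complex.norm_natCast, Real.sqrt_mul hTr.le,
    Real.sqrt_mul hTr.le] at hnorm
  have h1 : δ * (√(T : ℝ) * √(∑ n ∈ s1, ‖g1 n‖ ^ 2) * (√(T : ℝ) * √(∑ n ∈ s2, ‖g2 n‖ ^ 2))) =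
      T * (δ * (√(∑ n ∈ s1, ‖g1 n‖ ^ 2) * √(∑ n ∈ s2, ‖g2 n‖ ^ 2))) := by
    have h2 : √(T : ℝ) * √(T : ℝ) = T := Real.mul_self_sqrt hTr.le
    calc δ * (√(T : ℝ) * √(∑ n ∈ s1, ‖g1 n‖ ^ 2) * (√(T : ℝ) * √(∑ n ∈ s2, ‖g2 n‖ ^ 2)))
        = (√(T : ℝ) * √(T : ℝ)) *
          (δ * (√(∑ n ∈ s1, ‖g1 n‖ ^ 2) * √(∑ n ∈ s2, ‖g2 n‖ ^ 2))) := by ring
      _ = _ := by rw [h2]
  rw [h1] at hnorm
  exact le_of_mul_le_mul_left hnorm hTr

/-- the tent on its first linear piece -/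
theorem vt_linear {H : ℕ} (hH : 1 ≤ H) {u : ℤ} (h1 : 2 * (H : ℤ) + 1 ≤ u)
    (h2 : u ≤ 3 * (H : ℤ) + 1) : vt H u * (H : ℝ) ^ 2 = ((u - 2 * H - 1 : ℤ) : ℝ) := by
  have hH0 : (H : ℝ) ≠ 0 := by
    have : (0 : ℝ) < H := by exact_mod_cast hH
    exact this.ne'
  unfold vt
  rw [div_mul_cancel₀ _ (pow_ne_zero 2 hH0)]
  have h3 : (Ioc H (2 * H)).filter (fun v : ℕ => (H : ℤ) < u - v ∧ u - v ≤ 2 * H) =
      Ioc H (H + (u - 2 * H - 1).toNat) := by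
    ext v
    rw [Finset.mem_filter, Finset.mem_Ioc, Finset.mem_Ioc]
    omega
  rw [h3, Nat.card_Ioc]
  have h4 : ((H + (u - 2 * H - 1).toNat - H : ℕ) : ℤ) = u - 2 * H - 1 := by omega
  exact_mod_cast h4

/-- **AN for one pair of windows** (complex weights) -/
theorem an1_cplx {f : ℤ[X]} {H Q x0 X L : ℕ} {δ : ℝ} {g1 g2 : ℤ → ℂ} {n0 m0 c : ℤ}
    (hH : 1 ≤ H) (hx0 : 1 ≤ x0) (hδ : 0 ≤ δ) (hc : n0 - m0 = c + 2 * H + 1) (hc1 : 1 ≤ c)
    (hcL : 4 * (L : ℤ) ≤ c) (hcH : c + L ≤ H + 1)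
    (hfree : ∀ n ∈ Ioc n0 (n0 + L), ∀ m ∈ Ioc m0 (m0 + L), g1 n ≠ 0 → g2 m ≠ 0 →
      ∀ x : ℕ, 1 ≤ x → n - m ≠ f.eval (x : ℤ))
    (hpt : ∀ θ : ℝ, ‖Sx f H x0 X θ - Mn f H Q θ‖ ≤ δ) :
    ‖∑ q ∈ Icc 1 Q, ∑ a ∈ (range q).filter (Nat.Coprime q), Gam f a q *
      (Ft g1 (Ioc n0 (n0 + L)) ((a : ℝ) / q) *
        (starRingEnd ℂ) (Ft g2 (Ioc m0 (m0 + L)) ((a : ℝ) / q)))‖ ≤
      2 * δ * ((H : ℝ) ^ 2 / c) * (√(∑ n ∈ Ioc n0 (n0 + (L : ℤ)), ‖g1 n‖ ^ 2) *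
        √(∑ n ∈ Ioc m0 (m0 + (L : ℤ)), ‖g2 n‖ ^ 2)) := by
  set s1 := Ioc n0 (n0 + (L : ℤ)) with hs1
  set s2 := Ioc m0 (m0 + (L : ℤ)) with hs2
  rw [← Bf_one]
  have hc0 : (0 : ℝ) < c := by exact_mod_cast (by omega : 0 < c)
  have hcC : (c : ℂ) ≠ 0 := by
    have : c ≠ 0 := by omega
    exact_mod_cast this
  set A : ℝ := δ * ((H : ℝ) ^ 2 / c) * (√(∑ n ∈ s1, ‖g1 n‖ ^ 2) * √(∑ n ∈ s2, ‖g2 n‖ ^ 2))
    with hA
  have hA0 : 0 ≤ A := by rw [hA]; positivity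
  -- trivial bound
  set C : ℝ := ∑ n ∈ s1, ∑ m ∈ s2, ‖g1 n‖ * ‖g2 m‖ * ‖Kn f Q (n - m)‖ with hC
  have hC0 : 0 ≤ C := by rw [hC]; positivity
  -- one step
  have hstep : ∀ u v : ℤ → ℂ, (∀ n, ‖u n‖ ≤ 1) → (∀ n, ‖v n‖ ≤ 1) →
      ‖Bf f Q (fun _ => 1) (fun n => g1 n * u n) (fun n => g2 n * v n) s1 s2‖ ≤
        A + 1 / 4 * ‖Bf f Q (fun _ => 1) (fun n => g1 n * (if n ∈ s1 then
            4 * ((n - n0 : ℤ) : ℂ) / c * u n else 0)) (fun n => g2 n * v n) s1 s2‖ +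
          1 / 4 * ‖Bf f Q (fun _ => 1) (fun n => g1 n * u n) (fun n => g2 n * (if n ∈ s2 then
            4 * ((n - m0 : ℤ) : ℂ) / c * v n else 0)) s1 s2‖ := by
    intro u v hu hv
    have h1 : Bf f Q (fun _ => 1) (fun n => g1 n * u n) (fun n => g2 n * v n) s1 s2 =
        ((H : ℂ) ^ 2 / c) * Bf f Q (fun w => (vt H w : ℂ)) (fun n => g1 n * u n)
          (fun n => g2 n * v n) s1 s2 -
        1 / 4 * Bf f Q (fun _ => 1) (fun n => g1 n * (if n ∈ s1 then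
            4 * ((n - n0 : ℤ) : ℂ) / c * u n else 0)) (fun n => g2 n * v n) s1 s2 +
        1 / 4 * Bf f Q (fun _ => 1) (fun n => g1 n * u n) (fun n => g2 n * (if n ∈ s2 then
            4 * ((n - m0 : ℤ) : ℂ) / c * v n else 0)) s1 s2 := by
      unfold Bf
      rw [Finset.mul_sum, Finset.mul_sum, Finset.mul_sum, ← Finset.sum_sub_distrib,
        ← Finset.sum_add_distrib]
      refine Finset.sum_congr rfl fun n hn => ?_
      rw [Finset.mul_sum, Finset.mul_sum, Finset.mul_sum, ← Finset.sum_sub_distrib,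
        ← Finset.sum_add_distrib]
      refine Finset.sum_congr rfl fun m hm => ?_
      beta_reduce
      rw [if_pos hn, if_pos hm]
      have hn' : n0 < n ∧ n ≤ n0 + L := Finset.mem_Ioc.1 hn
      have hm' : m0 < m ∧ m ≤ m0 + L := Finset.mem_Ioc.1 hm
      have h2 : vt H (n - m) * (H : ℝ) ^ 2 = ((n - m - 2 * H - 1 : ℤ) : ℝ) :=
        vt_linear hH (by omega) (by omega)
      have h3 : (vt H (n - m) : ℂ) * (H : ℂ) ^ 2 = (c : ℂ) + (n - n0 : ℤ) - (m - m0 : ℤ) := by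
        have h4 : (((vt H (n - m) * (H : ℝ) ^ 2 : ℝ)) : ℂ) =
            (((n - m - 2 * H - 1 : ℤ) : ℝ) : ℂ) := by rw [h2]
        have h5 : n - m - 2 * H - 1 = c + (n - n0) - (m - m0) := by omega
        rw [h5] at h4
        push_cast at h4 ⊢
        exact h4
      have h6 : (starRingEnd ℂ) (4 * ((m - m0 : ℤ) : ℂ) / c * v m) =
          4 * ((m - m0 : ℤ) : ℂ) / c * (starRingEnd ℂ) (v m) := by
        rw [map_mul, map_div₀, map_mul]
        rw [Complex.conj_ofNat, map_intCast, map_intCast]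
      rw [map_mul, map_mul, h6]
      have h7 : (H : ℂ) ^ 2 / c * (g1 n * u n * ((starRingEnd ℂ) (g2 m) * (starRingEnd ℂ) (v m)) *
          ((vt H (n - m) : ℂ) * Kn f Q (n - m))) =
          (vt H (n - m) : ℂ) * (H : ℂ) ^ 2 * (g1 n * u n *
            ((starRingEnd ℂ) (g2 m) * (starRingEnd ℂ) (v m)) * Kn f Q (n - m)) / c := by
        ring
      rw [h7, h3]
      field_simp
      ring
    rw [h1]
    have h8 : ‖((H : ℂ) ^ 2 / c) * Bf f Q (fun w => (vt H w : ℂ)) (fun n => g1 n * u n)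
        (fun n => g2 n * v n) s1 s2‖ ≤ A := by
      rw [norm_mul, norm_div, norm_pow, Complex.norm_natCast, Complex.norm_intCast,
        abs_of_pos hc0]
      have h9 := tent_small (f := f) (H := H) (Q := Q) (x0 := x0) (X := X) (δ := δ)
        (g1 := fun n => g1 n * u n) (g2 := fun n => g2 n * v n) (s1 := s1) (s2 := s2) hH hx0 hδ
        (by
          intro n hn m hm hgn hgm
          exact hfree n hn m hm (left_ne_zero_of_mul hgn) (left_ne_zero_of_mul hgm)) hpt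
      have h10 : √(∑ n ∈ s1, ‖g1 n * u n‖ ^ 2) ≤ √(∑ n ∈ s1, ‖g1 n‖ ^ 2) := by
        apply Real.sqrt_le_sqrt
        refine Finset.sum_le_sum fun n _ => ?_
        rw [norm_mul]
        have : ‖g1 n‖ * ‖u n‖ ≤ ‖g1 n‖ := mul_le_of_le_one_right (norm_nonneg _) (hu n)
        gcongr
      have h11 : √(∑ n ∈ s2, ‖g2 n * v n‖ ^ 2) ≤ √(∑ n ∈ s2, ‖g2 n‖ ^ 2) := by
        apply Real.sqrt_le_sqrt
        refine Finset.sum_le_sum fun n _ => ?_
        rw [norm_mul]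
        have : ‖g2 n‖ * ‖v n‖ ≤ ‖g2 n‖ := mul_le_of_le_one_right (norm_nonneg _) (hv n)
        gcongr
      calc (H : ℝ) ^ 2 / c * ‖Bf f Q (fun w => (vt H w : ℂ)) (fun n => g1 n * u n)
            (fun n => g2 n * v n) s1 s2‖
          ≤ (H : ℝ) ^ 2 / c * (δ * (√(∑ n ∈ s1, ‖g1 n * u n‖ ^ 2) *
            √(∑ n ∈ s2, ‖g2 n * v n‖ ^ 2))) := by gcongr
        _ ≤ (H : ℝ) ^ 2 / c * (δ * (√(∑ n ∈ s1, ‖g1 n‖ ^ 2) *
            √(∑ n ∈ s2, ‖g2 n‖ ^ 2))) := by gcongr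
        _ = A := by rw [hA]; ring
    refine (norm_add_le _ _).trans ?_
    refine add_le_add ((norm_sub_le _ _).trans (add_le_add h8 ?_)) ?_
    · rw [norm_mul]
      apply le_of_eq
      norm_num
    · rw [norm_mul]
      apply le_of_eq
      norm_num
  -- iteration
  have hiter : ∀ k : ℕ, ∀ u v : ℤ → ℂ, (∀ n, ‖u n‖ ≤ 1) → (∀ n, ‖v n‖ ≤ 1) →
      ‖Bf f Q (fun _ => 1) (fun n => g1 n * u n) (fun n => g2 n * v n) s1 s2‖ ≤
        2 * A + C / 2 ^ k := by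
    intro k
    induction k with
    | zero =>
      intro u v hu hv
      have h1 : ‖Bf f Q (fun _ => 1) (fun n => g1 n * u n) (fun n => g2 n * v n) s1 s2‖ ≤ C := by
        unfold Bf
        rw [hC]
        refine (norm_sum_le _ _).trans (Finset.sum_le_sum fun n _ => ?_)
        refine (norm_sum_le _ _).trans (Finset.sum_le_sum fun m _ => ?_)
        rw [norm_mul, norm_mul, RCLike.norm_conj, norm_mul, norm_mul, one_mul]
        have h2 : ‖g1 n‖ * ‖u n‖ ≤ ‖g1 n‖ := mul_le_of_le_one_right (norm_nonneg _) (hu n)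
        have h3 : ‖g2 m‖ * ‖v m‖ ≤ ‖g2 m‖ := mul_le_of_le_one_right (norm_nonneg _) (hv m)
        gcongr
      rw [pow_zero, div_one]
      linarith
    | succ k ih =>
      intro u v hu hv
      have h1 := hstep u v hu hv
      have h2 := ih (fun n => if n ∈ s1 then 4 * ((n - n0 : ℤ) : ℂ) / c * u n else 0) v (by
        intro n
        split_ifs with hn
        · have hn' : n0 < n ∧ n ≤ n0 + L := Finset.mem_Ioc.1 hn
          rw [norm_mul, norm_div, norm_mul, Complex.norm_intCast, Complex.norm_intCast,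
            abs_of_pos hc0, Complex.norm_ofNat]
          have h4 : |((n - n0 : ℤ) : ℝ)| = ((n - n0 : ℤ) : ℝ) := by
            rw [abs_of_nonneg]
            exact_mod_cast (by omega : 0 ≤ n - n0)
          rw [h4]
          have h5 : 4 * ((n - n0 : ℤ) : ℝ) ≤ c := by
            exact_mod_cast (by omega : 4 * (n - n0) ≤ c)
          have h6 : 4 * ((n - n0 : ℤ) : ℝ) / c ≤ 1 := by
            rw [div_le_one hc0]
            exact h5
          have h7 : 0 ≤ 4 * ((n - n0 : ℤ) : ℝ) / c := by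
            have : (0 : ℝ) ≤ ((n - n0 : ℤ) : ℝ) := by exact_mod_cast (by omega : 0 ≤ n - n0)
            positivity
          calc _ ≤ (1 : ℝ) * 1 := mul_le_mul h6 (hu n) (norm_nonneg _) zero_le_one
            _ = 1 := one_mul 1
        · rw [norm_zero]
          exact zero_le_one) hv
      have h3 := ih u (fun n => if n ∈ s2 then 4 * ((n - m0 : ℤ) : ℂ) / c * v n else 0) hu (by
        intro n
        split_ifs with hn
        · have hn' : m0 < n ∧ n ≤ m0 + L := Finset.mem_Ioc.1 hn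
          rw [norm_mul, norm_div, norm_mul, Complex.norm_intCast, Complex.norm_intCast,
            abs_of_pos hc0, Complex.norm_ofNat]
          have h4 : |((n - m0 : ℤ) : ℝ)| = ((n - m0 : ℤ) : ℝ) := by
            rw [abs_of_nonneg]
            exact_mod_cast (by omega : 0 ≤ n - m0)
          rw [h4]
          have h5 : 4 * ((n - m0 : ℤ) : ℝ) ≤ c := by
            exact_mod_cast (by omega : 4 * (n - m0) ≤ c)
          have h6 : 4 * ((n - m0 : ℤ) : ℝ) / c ≤ 1 := by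
            rw [div_le_one hc0]
            exact h5
          have h7 : 0 ≤ 4 * ((n - m0 : ℤ) : ℝ) / c := by
            have : (0 : ℝ) ≤ ((n - m0 : ℤ) : ℝ) := by exact_mod_cast (by omega : 0 ≤ n - m0)
            positivity
          calc _ ≤ (1 : ℝ) * 1 := mul_le_mul h6 (hv n) (norm_nonneg _) zero_le_one
            _ = 1 := one_mul 1
        · rw [norm_zero]
          exact zero_le_one)
      have h4 : C / 2 ^ (k + 1) = C / 2 ^ k / 2 := by rw [pow_succ]; field_simp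
      rw [h4]
      linarith
  have hfin : ∀ k : ℕ, ‖Bf f Q (fun _ => 1) g1 g2 s1 s2‖ ≤ 2 * A + C / 2 ^ k := by
    intro k
    have h1 := hiter k (fun _ => 1) (fun _ => 1) (fun _ => by rw [norm_one])
      (fun _ => by rw [norm_one])
    simpa using h1
  have hlim : Filter.Tendsto (fun k : ℕ => 2 * A + C / 2 ^ k) Filter.atTop (nhds (2 * A + 0)) := by
    apply Filter.Tendsto.const_add
    have h1 : Filter.Tendsto (fun k : ℕ => C * (1 / 2 : ℝ) ^ k) Filter.atTop (nhds (C * 0)) :=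
      (tendsto_pow_atTop_nhds_zero_of_lt_one (by norm_num) (by norm_num)).const_mul C
    rw [mul_zero] at h1
    refine h1.congr fun k => ?_
    rw [one_div, inv_pow, div_eq_mul_inv]
  have hres : ‖Bf f Q (fun _ => 1) g1 g2 s1 s2‖ ≤ 2 * A + 0 :=
    ge_of_tendsto' hlim hfin
  calc ‖Bf f Q (fun _ => 1) g1 g2 s1 s2‖ ≤ 2 * A + 0 := hres
    _ = _ := by rw [hA]; ring

/-- **AN for one pair of windows** (real weights) -/
theorem an1_real {f : ℤ[X]} {H Q x0 X L : ℕ} {δ : ℝ} {g1 g2 : ℤ → ℝ} {n0 m0 c : ℤ}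
    (hH : 1 ≤ H) (hx0 : 1 ≤ x0) (hδ : 0 ≤ δ) (hc : n0 - m0 = c + 2 * H + 1) (hc1 : 1 ≤ c)
    (hcL : 4 * (L : ℤ) ≤ c) (hcH : c + L ≤ H + 1)
    (hfree : ∀ n ∈ Ioc n0 (n0 + L), ∀ m ∈ Ioc m0 (m0 + L), g1 n ≠ 0 → g2 m ≠ 0 →
      ∀ x : ℕ, 1 ≤ x → n - m ≠ f.eval (x : ℤ))
    (hpt : ∀ θ : ℝ, ‖Sx f H x0 X θ - Mn f H Q θ‖ ≤ δ) :
    ‖∑ q ∈ Icc 1 Q, ∑ a ∈ (range q).filter (Nat.Coprime q), Gam f a q *
      (Fw g1 n0 L ((a : ℝ) / q) * (starRingEnd ℂ) (Fw g2 m0 L ((a : ℝ) / q)))‖ ≤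
      2 * δ * ((H : ℝ) ^ 2 / c) * (√(∑ n ∈ Ioc n0 (n0 + (L : ℤ)), g1 n ^ 2) *
        √(∑ n ∈ Ioc m0 (m0 + (L : ℤ)), g2 n ^ 2)) := by
  have h := an1_cplx (f := f) (H := H) (Q := Q) (x0 := x0) (X := X) (L := L) (δ := δ)
    (g1 := fun n => (g1 n : ℂ)) (g2 := fun n => (g2 n : ℂ)) (n0 := n0) (m0 := m0) (c := c)
    hH hx0 hδ hc hc1 hcL hcH (by
      intro n hn m hm h1 h2
      exact hfree n hn m hm (by exact_mod_cast h1) (by exact_mod_cast h2)) hpt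
  simp only [Complex.norm_real, Real.norm_eq_abs, sq_abs] at h
  simpa only [← Fw_eq_Ft] using h

end Vale.Agent.P042.H758
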