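import Vale.Agent.P042.SS.Defs

set_option autoImplicit false

/-!
P042 (helper758): rescaling of a progression inside an integer window.

`cel G W r` is the restriction of `G` to the class `r mod W`, `rsc G W r j = G (r + W j)`.
Energies at moduli prime to `W` and masses are transported.
-/

namespace Vale.Agent.P042.H758
open Finset Vale.Agent.P042 Vale.Agent.P042.SS

/-- restriction to a class -/
noncomputable def cel (G : ℤ → ℝ) (W : ℕ) (r : ℤ) : ℤ → ℝ :=
  fun n => if n ≡ r [ZMOD (W : ℤ)] then G n else 0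

/-- the rescaled progression -/
def rsc (G : ℤ → ℝ) (W : ℕ) (r : ℤ) : ℤ → ℝ := fun j => G (r + W * j)

/-- left end of the rescaled window -/
def yy (W : ℕ) (r y : ℤ) : ℤ := (y - r) / W

/-- length of the rescaled window -/
def nn (W : ℕ) (r y : ℤ) (N : ℕ) : ℕ := ((y + N - r) / W - (y - r) / W).toNat

theorem yy_add_nn {W : ℕ} (hW : 1 ≤ W) (r y : ℤ) (N : ℕ) :
    yy W r y + nn W r y N = (y + N - r) / W := by
  unfold yy nn
  have h1 : (y - r) / (W : ℤ) ≤ (y + N - r) / W :=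
    Int.ediv_le_ediv (by exact_mod_cast hW) (by omega)
  rw [Int.toNat_of_nonneg (by omega)]
  ring

theorem mem_yy {W : ℕ} (hW : 1 ≤ W) (r y : ℤ) (N : ℕ) (j : ℤ) :
    j ∈ Ioc (yy W r y) (yy W r y + nn W r y N) ↔ r + W * j ∈ Ioc y (y + N) := by
  have hW' : (0 : ℤ) < W := by exact_mod_cast hW
  rw [mem_Ioc, mem_Ioc, yy_add_nn hW]
  unfold yy
  rw [Int.ediv_lt_iff_lt_mul hW', Int.le_ediv_iff_mul_le hW', mul_comm j (W : ℤ)]
  constructor
  · rintro ⟨h1, h2⟩
    exact ⟨by linarith, by linarith⟩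
  · rintro ⟨h1, h2⟩
    exact ⟨by linarith, by linarith⟩

/-- reindexing a progression -/
theorem sum_prog {E : Type*} [AddCommMonoid E] {W : ℕ} (hW : 1 ≤ W) (r y : ℤ) (N : ℕ)
    (F : ℤ → E) :
    ∑ n ∈ (Ioc y (y + N)).filter (fun n : ℤ => n ≡ r [ZMOD (W : ℤ)]), F n =
      ∑ j ∈ Ioc (yy W r y) (yy W r y + nn W r y N), F (r + W * j) := by
  have hW' : (0 : ℤ) < W := by exact_mod_cast hW
  symm
  refine Finset.sum_bij (fun j _ => r + W * j) ?_ ?_ ?_ ?_
  · intro j hj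
    rw [mem_filter]
    refine ⟨(mem_yy hW r y N j).1 hj, ?_⟩
    exact (Int.modEq_iff_dvd.2 ⟨-j, by ring⟩)
  · intro i _ j _ hij
    have : (W : ℤ) * i = W * j := by linarith
    exact mul_left_cancel₀ hW'.ne' this
  · intro n hn
    rw [mem_filter] at hn
    obtain ⟨k, hk⟩ := Int.modEq_iff_dvd.1 hn.2.symm
    refine ⟨k, ?_, by linarith⟩
    rw [mem_yy hW]
    have : r + W * k = n := by linarith
    rw [this]
    exact hn.1
  · intro j _
    rfl

theorem nn_le {W : ℕ} (hW : 1 ≤ W) (r y : ℤ) (N : ℕ) : (nn W r y N : ℝ) ≤ N / W + 1 := by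
  have hW' : (0 : ℤ) < W := by exact_mod_cast hW
  have hWr : (0 : ℝ) < W := by exact_mod_cast hW
  have h1 := yy_add_nn hW r y N
  have h2 : (y + N - r) / (W : ℤ) * W ≤ y + N - r := Int.ediv_mul_le _ hW'.ne'
  have h3 : y - r < ((y - r) / (W : ℤ) + 1) * W := Int.lt_ediv_add_one_mul_self _ hW'
  have h4 : (nn W r y N : ℤ) * W < N + W := by
    have h5 : (nn W r y N : ℤ) = (y + N - r) / W - (y - r) / W := by
      have : yy W r y = (y - r) / W := rfl
      linarith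
    rw [h5]
    nlinarith
  have h6 : (nn W r y N : ℝ) * W ≤ N + W := by exact_mod_cast h4.le
  rw [← sub_nonneg]
  have h7 : (N : ℝ) / W + 1 - nn W r y N = ((N : ℝ) + W - nn W r y N * W) / W := by
    field_simp
  rw [h7]
  exact div_nonneg (by linarith) hWr.le

theorem le_nn {W : ℕ} (hW : 1 ≤ W) (r y : ℤ) (N : ℕ) : (N : ℝ) / W - 1 ≤ nn W r y N := by
  have hW' : (0 : ℤ) < W := by exact_mod_cast hW
  have hWr : (0 : ℝ) < W := by exact_mod_cast hW
  have h1 := yy_add_nn hW r y N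
  have h2 : (y - r) / (W : ℤ) * W ≤ y - r := Int.ediv_mul_le _ hW'.ne'
  have h3 : y + N - r < ((y + N - r) / (W : ℤ) + 1) * W := Int.lt_ediv_add_one_mul_self _ hW'
  have h4 : (N : ℤ) - W < (nn W r y N : ℤ) * W := by
    have h5 : (nn W r y N : ℤ) = (y + N - r) / W - (y - r) / W := by
      have : yy W r y = (y - r) / W := rfl
      linarith
    rw [h5]
    nlinarith
  have h6 : (N : ℝ) - W ≤ nn W r y N * W := by exact_mod_cast h4.le
  rw [← sub_nonneg]
  have h7 : (nn W r y N : ℝ) - (N / W - 1) = ((nn W r y N : ℝ) * W - (N - W)) / W := by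
    field_simp
  rw [h7]
  exact div_nonneg (by linarith) hWr.le

/-- masses -/
theorem mass_rsc (G : ℤ → ℝ) {W : ℕ} (hW : 1 ≤ W) (r y : ℤ) (N D : ℕ) (x : ℤ) :
    mass (rsc G W r) (yy W r y) (nn W r y N) D x = mass G y N (W * D) (r + W * x) := by
  have hW' : (0 : ℤ) < W := by exact_mod_cast hW
  have key : ∀ j : ℤ, j ≡ x [ZMOD (D : ℤ)] ↔
      r + W * j ≡ r + W * x [ZMOD ((W * D : ℕ) : ℤ)] := by
    intro j
    rw [Int.modEq_iff_dvd, Int.modEq_iff_dvd]
    push_cast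
    have h1 : r + (W : ℤ) * x - (r + W * j) = W * (x - j) := by ring
    rw [h1, mul_dvd_mul_iff_left hW'.ne']
  unfold mass rsc
  rw [Finset.sum_filter]
  have h1 := sum_prog hW r y N
    (fun n => if n ≡ r + W * x [ZMOD ((W * D : ℕ) : ℤ)] then G n else 0)
  have h2 : ∑ j ∈ Ioc (yy W r y) (yy W r y + nn W r y N),
      (if j ≡ x [ZMOD (D : ℤ)] then G (r + W * j) else 0) =
      ∑ j ∈ Ioc (yy W r y) (yy W r y + nn W r y N),
        (if r + W * j ≡ r + W * x [ZMOD ((W * D : ℕ) : ℤ)] then G (r + W * j) else 0) :=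
    Finset.sum_congr rfl fun j _ => by simp only [key j]
  rw [h2, ← h1, ← Finset.sum_filter, Finset.filter_filter]
  refine Finset.sum_congr ?_ fun _ _ => rfl
  ext n
  rw [mem_filter, mem_filter]
  constructor
  · rintro ⟨h3, _, h4⟩
    exact ⟨h3, h4⟩
  · rintro ⟨h3, h4⟩
    refine ⟨h3, ?_, h4⟩
    have h5 : n ≡ r + W * x [ZMOD (W : ℤ)] := by
      refine Int.ModEq.of_mul_right (D : ℤ) ?_
      have : ((W * D : ℕ) : ℤ) = (W : ℤ) * D := by push_cast; ring
      rwa [this] at h4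
    exact h5.trans (Int.modEq_iff_dvd.2 ⟨-x, by ring⟩)

/-- the exponential sum of a progression -/
theorem Fw_cel (G : ℤ → ℝ) {W : ℕ} (hW : 1 ≤ W) (r y : ℤ) (N : ℕ) (θ : ℝ) :
    Fw (cel G W r) y N θ =
      e (-((r : ℝ) * θ)) * Fw (rsc G W r) (yy W r y) (nn W r y N) (W * θ) := by
  unfold Fw cel rsc
  have h1 : ∑ n ∈ Ioc y (y + N), (((if n ≡ r [ZMOD (W : ℤ)] then G n else 0 : ℝ)) : ℂ) *
      e (-((n : ℝ) * θ)) = ∑ n ∈ (Ioc y (y + N)).filter (fun n : ℤ => n ≡ r [ZMOD (W : ℤ)]),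
        (G n : ℂ) * e (-((n : ℝ) * θ)) := by
    rw [Finset.sum_filter]
    refine Finset.sum_congr rfl fun n _ => ?_
    split_ifs <;> simp
  rw [h1, sum_prog hW r y N (fun n => (G n : ℂ) * e (-((n : ℝ) * θ))), Finset.mul_sum]
  refine Finset.sum_congr rfl fun j _ => ?_
  have h2 : -(((r + W * j : ℤ) : ℝ) * θ) = -((r : ℝ) * θ) + -((j : ℝ) * (W * θ)) := by
    push_cast
    ring
  rw [h2, e_add]
  ring

theorem norm_e (x : ℝ) : ‖e x‖ = 1 := by
  unfold e
  rw [Complex.norm_exp_ofReal_mul_I]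

theorem Fw_int_add (G : ℤ → ℝ) (y : ℤ) (N : ℕ) (θ : ℝ) (m : ℤ) :
    Fw G y N (θ + m) = Fw G y N θ := by
  unfold Fw
  refine Finset.sum_congr rfl fun n _ => ?_
  have h2 : -((n : ℝ) * (θ + m)) = -((n : ℝ) * θ) + ((-(n * m) : ℤ) : ℝ) := by
    push_cast
    ring
  rw [h2, e_add, e_int, mul_one]

/-- energies at moduli prime to `W` -/
theorem enG_cel (G : ℤ → ℝ) {W : ℕ} (hW : 1 ≤ W) (r y : ℤ) (N : ℕ) {q : ℕ} (hq : 1 ≤ q)
    (hc : Nat.Coprime W q) :
    enG (cel G W r) y N q = enG (rsc G W r) (yy W r y) (nn W r y N) q := by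
  classical
  have hqr : (q : ℝ) ≠ 0 := by
    have : (0 : ℝ) < q := by exact_mod_cast hq
    exact this.ne'
  unfold enG
  set s := (range q).filter (Nat.Coprime q) with hs
  set f : ℕ → ℝ := fun a => ‖Fw (rsc G W r) (yy W r y) (nn W r y N) ((a : ℝ) / q)‖ ^ 2 with hf
  have h1 : ∀ a ∈ s, ‖Fw (cel G W r) y N ((a : ℝ) / q)‖ ^ 2 = f (W * a % q) := by
    intro a _
    rw [Fw_cel G hW, norm_mul, norm_e, one_mul, hf]
    simp only
    have h2 : (W : ℝ) * (a / q) = ((W * a % q : ℕ) : ℝ) / q + ((W * a / q : ℕ) : ℤ) := by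
      have h3 : ((W * a : ℕ) : ℝ) = ((W * a % q : ℕ) : ℝ) + q * ((W * a / q : ℕ) : ℝ) := by
        exact_mod_cast (Nat.mod_add_div (W * a) q).symm
      rw [Int.cast_natCast, ← mul_div_assoc]
      push_cast at h3
      rw [h3]
      field_simp
    rw [h2, Fw_int_add]
  rw [Finset.sum_congr rfl h1]
  have hmaps : ∀ a ∈ s, W * a % q ∈ s := by
    intro a ha
    rw [hs, mem_filter, mem_range] at ha ⊢
    refine ⟨Nat.mod_lt _ (by omega), ?_⟩
    have h2 : Nat.Coprime q (W * a) := Nat.Coprime.mul_right hc.symm ha.2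
    unfold Nat.Coprime at h2 ⊢
    rw [Nat.gcd_comm q (W * a % q), ← Nat.gcd_rec]
    exact h2
  have hinj : Set.InjOn (fun a => W * a % q) (s : Set ℕ) := by
    intro a ha b hb hab
    rw [hs, mem_coe, mem_filter, mem_range] at ha hb
    have h2 : W * a ≡ W * b [MOD q] := hab
    have h3 : a ≡ b [MOD q] := Nat.ModEq.cancel_left_of_coprime (by
      rw [Nat.gcd_comm]; exact hc) h2
    have h4 := h3
    unfold Nat.ModEq at h4
    rwa [Nat.mod_eq_of_lt ha.1, Nat.mod_eq_of_lt hb.1] at h4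
  have himg : s.image (fun a => W * a % q) = s := by
    apply Finset.eq_of_subset_of_card_le
    · intro b hb
      obtain ⟨a, ha, rfl⟩ := Finset.mem_image.1 hb
      exact hmaps a ha
    · rw [Finset.card_image_of_injOn hinj]
  calc ∑ a ∈ s, f (W * a % q) = ∑ b ∈ s.image (fun a => W * a % q), f b :=
        (Finset.sum_image hinj).symm
    _ = ∑ b ∈ s, f b := by rw [himg]

end Vale.Agent.P042.H758
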