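import Vale.Agent.P042.H758.Prog
import Vale.Agent.P042.SS.UncA
import Vale.Agent.P042.SS2.Li2

set_option autoImplicit false

/-!
P042 (helper758): the level inequality in one pinned cell, for one class of moduli whose primes
are top primes.  The cell enters through the rescaled progression, so that nothing is lost.
-/

namespace Vale.Agent.P042.H758
open Finset Vale.Agent.P042 Vale.Agent.P042.SS

/-- sets of primes with bounded product -/
noncomputable def fam (Pr : Finset ℕ) (M : ℕ) : Finset (Finset ℕ) :=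
  Pr.powerset.filter (fun S => ∏ p ∈ S, p ≤ M)

theorem mem_fam {Pr : Finset ℕ} {M : ℕ} {S : Finset ℕ} :
    S ∈ fam Pr M ↔ S ⊆ Pr ∧ ∏ p ∈ S, p ≤ M := by
  unfold fam
  rw [mem_filter, mem_powerset]

theorem primeFactors_prod_primes {S : Finset ℕ} (hS : ∀ p ∈ S, p.Prime) :
    (∏ p ∈ S, p).primeFactors = S := by
  classical
  ext q
  rw [Nat.mem_primeFactors_of_ne_zero (Finset.prod_ne_zero_iff.2 fun p hp => (hS p hp).ne_zero)]
  constructor
  · rintro ⟨hq, hd⟩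
    obtain ⟨p, hp, hqp⟩ := (Prime.dvd_finsetProd_iff hq.prime _).1 hd
    rw [(Nat.prime_dvd_prime_iff_eq hq (hS p hp)).1 hqp]
    exact hp
  · intro hq
    exact ⟨hS q hq, Finset.dvd_prod_of_mem _ hq⟩

theorem card_fam_le {Pr : Finset ℕ} (hPr : ∀ p ∈ Pr, p.Prime) (M : ℕ) :
    (fam Pr M).card ≤ M + 1 := by
  classical
  have h1 : Set.InjOn (fun S : Finset ℕ => ∏ p ∈ S, p) (fam Pr M : Set (Finset ℕ)) := by
    intro S hS T hT hST
    rw [mem_coe, mem_fam] at hS hT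
    have h2 := primeFactors_prod_primes fun p hp => hPr p (hS.1 hp)
    have h3 := primeFactors_prod_primes fun p hp => hPr p (hT.1 hp)
    simp only at hST
    rw [← h2, ← h3, hST]
  have h2 : ∀ S ∈ fam Pr M, (∏ p ∈ S, p) ∈ range (M + 1) := by
    intro S hS
    rw [mem_fam] at hS
    rw [mem_range]
    omega
  calc (fam Pr M).card ≤ (range (M + 1)).card := Finset.card_le_card_of_injOn _ h2 h1
    _ = M + 1 := Finset.card_range _

theorem Ug_one {q : ℕ} (hq : 1 ≤ q) : Ug 1 q = q.primeFactors := by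
  unfold Ug
  apply Finset.filter_true_of_mem
  intro p hp hd
  have hpp := Nat.prime_of_mem_primeFactors hp
  have h1 : 1 ≤ q.factorization p :=
    (hpp.dvd_iff_one_le_factorization (by omega)).1 (Nat.dvd_of_mem_primeFactors hp)
  have h2 := Nat.eq_one_of_dvd_one hd
  have h3 : 2 ≤ p ^ q.factorization p := hpp.two_le.trans (Nat.le_self_pow (by omega) p)
  omega

theorem prod_primeFactors_le {q : ℕ} (hq : 1 ≤ q) : ∏ p ∈ q.primeFactors, p ≤ q :=
  Nat.le_of_dvd hq (Nat.prod_primeFactors_dvd q)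

/-- the level inequality in one cell for one class of moduli -/
theorem top_class {G : ℤ → ℝ} {A β Λ : ℝ} {W0 N1 m M D : ℕ} {r y : ℤ} {Pr Qs : Finset ℕ}
    {g : ℕ → ℕ} {b w : ℕ → ℝ} (hW : 1 ≤ W0) (hG0 : ∀ n, 0 ≤ G n) (hGA : ∀ n, G n ≤ A)
    (hA : 0 < A) (hβ : 0 < β) (hm : 2 ≤ m) (hPr : ∀ p ∈ Pr, p.Prime)
    (hPW : ∀ p ∈ Pr, ¬ p ∣ W0) (hb : ∀ p ∈ Pr, 1 ≤ b p)
    (hQ : ∀ q ∈ Qs, 1 ≤ q ∧ q ≤ M ∧ ∀ p ∈ q.primeFactors, p ∈ Pr ∧ q.factorization p ≤ g p)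
    (hg : ∀ S ⊆ Pr, ∏ p ∈ S, p ≤ M → ∏ p ∈ S, p ^ g p ≤ D)
    (hN : 2 * W0 * (D ^ (2 * m + 1) * (M + 1) ^ (2 * m)) ≤ N1)
    (hmass : ∀ S ⊆ Pr, ∏ p ∈ S, p ≤ M → ∀ x : ℤ, x ≡ r [ZMOD (W0 : ℤ)] →
      mass G y N1 (W0 * ∏ p ∈ S, p ^ g p) x ≤
        β * (∏ p ∈ S, b p) * (N1 / ((W0 * ∏ p ∈ S, p ^ g p : ℕ) : ℝ)))
    (hΛ : 0 ≤ Λ)
    (hw : ∀ q ∈ Qs, w q ≤ Λ * ∏ p ∈ q.primeFactors, (24 * m * b p)⁻¹) :
    ∑ q ∈ Qs, w q * enG (cel G W0 r) y N1 q ≤
      Λ * (32 * β ^ 2 * (1 + (A / β) ^ (1 / (m : ℝ)))) * (N1 / W0) ^ 2 := by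
  classical
  have hmr : (0 : ℝ) < m := by exact_mod_cast (by omega : 0 < m)
  have hW0r : (0 : ℝ) < W0 := by exact_mod_cast hW
  rcases Qs.eq_empty_or_nonempty with hQe | ⟨q1, hq1⟩
  · rw [hQe, Finset.sum_empty]
    have : 0 ≤ (A / β) ^ (1 / (m : ℝ)) := Real.rpow_nonneg (div_nonneg hA.le hβ.le) _
    positivity
  have hM1 : 1 ≤ M := (hQ q1 hq1).1.trans (hQ q1 hq1).2.1
  have hD1 : 1 ≤ D := by
    simpa using hg ∅ (Finset.empty_subset _) (by rw [Finset.prod_empty]; exact hM1)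
  set G2 : ℤ → ℝ := fun n => rsc G W0 r n / A with hG2
  set y2 := yy W0 r y with hy2
  set N2 := nn W0 r y N1 with hN2
  -- sizes of the rescaled window
  have hE : (1 : ℝ) ≤ ((D ^ (2 * m + 1) * (M + 1) ^ (2 * m) : ℕ) : ℝ) := by
    exact_mod_cast Nat.one_le_iff_ne_zero.2 (by positivity)
  have hNr : 2 * (W0 : ℝ) * ((D ^ (2 * m + 1) * (M + 1) ^ (2 * m) : ℕ) : ℝ) ≤ N1 := by
    exact_mod_cast hN
  have hquo : 2 * ((D ^ (2 * m + 1) * (M + 1) ^ (2 * m) : ℕ) : ℝ) ≤ (N1 : ℝ) / W0 := by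
    rw [le_div_iff₀ hW0r]
    linarith
  have hN2l := le_nn hW r y N1
  have hN2u := nn_le hW r y N1
  rw [← hN2] at hN2l hN2u
  have hN2half : (N1 : ℝ) / W0 / 2 ≤ N2 := by linarith
  have hN2pos : (0 : ℝ) < N2 := by linarith
  -- application of the level inequality
  have key := li2_holds Pr g 1 D m N2 (2 * β / A) (fun p => (24 * m * b p)⁻¹) b G2 y2 (fam Pr M) Qs
    hPr le_rfl hm (by positivity)
    (fun p hp => by
      have := hb p hp
      positivity)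
    hb
    (fun p hp => by
      have h1 := hb p hp
      have h2 : (0 : ℝ) < 24 * m * b p := by positivity
      rw [show (12 : ℝ) * m * (24 * m * b p)⁻¹ * (1 + b p) = (12 * m * (1 + b p)) / (24 * m * b p)
        by rw [div_eq_mul_inv]; ring, div_le_one h2]
      nlinarith)
    (fun n => div_nonneg (hG0 _) hA.le)
    (fun n => by
      rw [hG2]
      simp only
      rw [div_le_one hA]
      exact hGA _)
    (fun S hS => (mem_fam.1 hS).1)
    (fun S hS T hT => by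
      rw [mem_fam] at hS ⊢
      refine ⟨hT.trans hS.1, le_trans ?_ hS.2⟩
      exact Finset.prod_le_prod_of_subset_of_one_le' hT fun p hp _ =>
        (hPr p (hS.1 hp)).one_lt.le)
    (fun S hS => hg S (mem_fam.1 hS).1 (mem_fam.1 hS).2)
    (by
      have h1 : ((1 * D ^ (2 * m + 1) * (fam Pr M).card ^ (2 * m) : ℕ) : ℝ) ≤ N2 := by
        have h2 : 1 * D ^ (2 * m + 1) * (fam Pr M).card ^ (2 * m) ≤
            D ^ (2 * m + 1) * (M + 1) ^ (2 * m) := by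
          rw [one_mul]
          exact Nat.mul_le_mul_left _ (Nat.pow_le_pow_left (card_fam_le hPr M) _)
        have h3 : ((1 * D ^ (2 * m + 1) * (fam Pr M).card ^ (2 * m) : ℕ) : ℝ) ≤
            ((D ^ (2 * m + 1) * (M + 1) ^ (2 * m) : ℕ) : ℝ) := by exact_mod_cast h2
        linarith
      exact_mod_cast h1)
    (fun S hS x => by
      rw [mem_fam] at hS
      have hDS : (0 : ℝ) < ((∏ p ∈ S, p ^ g p : ℕ) : ℝ) := by
        have : 0 < ∏ p ∈ S, p ^ g p :=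
          Finset.prod_pos fun p hp => pow_pos (hPr p (hS.1 hp)).pos _
        exact_mod_cast this
      have hbS : 0 ≤ ∏ p ∈ S, b p :=
        Finset.prod_nonneg fun p hp => by
          have := hb p (hS.1 hp)
          linarith
      rw [one_mul, hG2, mass_div, mass_rsc G hW, div_le_iff₀ hA]
      refine (hmass S hS.1 hS.2 (r + W0 * x) (Int.modEq_iff_dvd.2 ⟨-x, by ring⟩)).trans ?_
      have h1 : (N1 : ℝ) / ((W0 * ∏ p ∈ S, p ^ g p : ℕ) : ℝ) ≤
          2 * (N2 / ((∏ p ∈ S, p ^ g p : ℕ) : ℝ)) := by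
        rw [Nat.cast_mul, ← div_div, ← mul_div_assoc]
        apply div_le_div_of_nonneg_right _ hDS.le
        linarith
      calc β * (∏ p ∈ S, b p) * ((N1 : ℝ) / ((W0 * ∏ p ∈ S, p ^ g p : ℕ) : ℝ)) ≤
            β * (∏ p ∈ S, b p) * (2 * (N2 / ((∏ p ∈ S, p ^ g p : ℕ) : ℝ))) :=
              mul_le_mul_of_nonneg_left h1 (mul_nonneg hβ.le hbS)
        _ = 2 * β / A * (∏ p ∈ S, b p) * (N2 / ((∏ p ∈ S, p ^ g p : ℕ) : ℝ)) * A := by
              field_simp)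
    (fun q hq => by
      obtain ⟨h1, h2, h3⟩ := hQ q hq
      refine ⟨h1, fun p hp => Or.inr (h3 p hp), ?_⟩
      rw [Ug_one h1, mem_fam]
      exact ⟨fun p hp => (h3 p hp).1, (prod_primeFactors_le h1).trans h2⟩)
  -- comparison of the sums
  have h4 : ∀ q ∈ Qs, w q * enG (cel G W0 r) y N1 q ≤
      Λ * A ^ 2 * ((∏ p ∈ Ug 1 q, (24 * m * b p)⁻¹) * enG G2 y2 N2 q) := by
    intro q hq
    obtain ⟨h1, h2, h3⟩ := hQ q hq
    have hc : Nat.Coprime W0 q := by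
      rw [Nat.coprime_comm]
      apply Nat.Coprime.symm
      rw [Nat.coprime_comm]
      apply Nat.coprime_of_dvd
      intro p hp hpq hpW
      exact hPW p (h3 p (Nat.mem_primeFactors.2 ⟨hp, hpq, by omega⟩)).1 hpW
    rw [enG_cel G hW r y N1 h1 hc, Ug_one h1, hG2, enG_div, ← hy2, ← hN2]
    have h5 := enG_nonneg (rsc G W0 r) y2 N2 q
    calc w q * enG (rsc G W0 r) y2 N2 q ≤
          (Λ * ∏ p ∈ q.primeFactors, (24 * m * b p)⁻¹) * enG (rsc G W0 r) y2 N2 q :=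
          mul_le_mul_of_nonneg_right (hw q hq) h5
      _ = Λ * A ^ 2 * ((∏ p ∈ q.primeFactors, (24 * m * b p)⁻¹) *
            (enG (rsc G W0 r) y2 N2 q / A ^ 2)) := by
          field_simp
  refine (Finset.sum_le_sum h4).trans ?_
  rw [← Finset.mul_sum]
  refine (mul_le_mul_of_nonneg_left key (by positivity)).trans ?_
  have h6 : (2 * β / A) ^ (-(1 / (m : ℝ))) ≤ (A / β) ^ (1 / (m : ℝ)) := by
    rw [Real.rpow_neg (by positivity), ← Real.inv_rpow (by positivity)]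
    apply Real.rpow_le_rpow (by positivity) _ (by positivity)
    rw [inv_div]
    apply div_le_div_of_nonneg_left hA.le hβ
    linarith
  have h7 : (N2 : ℝ) ^ 2 ≤ 4 * ((N1 : ℝ) / W0) ^ 2 := by
    have : (N2 : ℝ) ≤ 2 * ((N1 : ℝ) / W0) := by linarith
    nlinarith
  have h8 : 0 ≤ (A / β) ^ (1 / (m : ℝ)) := Real.rpow_nonneg (div_nonneg hA.le hβ.le) _
  have h9 : 0 ≤ (2 * β / A) ^ (-(1 / (m : ℝ))) := Real.rpow_nonneg (by positivity) _
  calc Λ * A ^ 2 * ((N2 : ℝ) ^ 2 * (2 * (2 * β / A) ^ 2 * (1 + (2 * β / A) ^ (-(1 / (m : ℝ)))))) =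
        Λ * (8 * β ^ 2 * (1 + (2 * β / A) ^ (-(1 / (m : ℝ))))) * (N2 : ℝ) ^ 2 := by
          field_simp
          ring
    _ ≤ Λ * (8 * β ^ 2 * (1 + (A / β) ^ (1 / (m : ℝ)))) * (4 * ((N1 : ℝ) / W0) ^ 2) := by
          gcongr
    _ = Λ * (32 * β ^ 2 * (1 + (A / β) ^ (1 / (m : ℝ)))) * (N1 / W0) ^ 2 := by ring

end Vale.Agent.P042.H758
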