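import Vale.Agent.P042.H188.TopWt
import Vale.Agent.P042.H758.NumTop

set_option autoImplicit false

/-!
P042, S.7: the sum over all moduli for the weight `G ≤ A0 om` where the mean `Z` of `om` is not
bounded by the exponential of the entropy; and the same with the numbers of target S.
-/

namespace Vale.Agent.P042.H758

open Finset Filter Vale.Agent.P042 Vale.Agent.P042.SS Vale.Agent.P042.TT Vale.Agent.P042.H527
open Vale.Agent.P042.H188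

/-- a factor `Z` of the sup norm costs `√(max 1 Z)` only -/
theorem cls_Z {Pr : Finset ℕ} {g : ℕ → ℕ} {MB : ℕ → ℝ → Prop} {En : ℕ → ℝ} {K A0 Z Cap : ℝ}
    (hK : 0 ≤ K) (hA : 0 < A0) (hZ : 0 ≤ Z) (H : Cls Pr g MB En K (A0 * Z) Cap) :
    Cls Pr g MB En (K * √(max 1 Z)) A0 Cap := by
  intro q2 m X β b Qs h1 h2 h3 h4 h5 h6 h7 h8
  refine (H q2 m X β b Qs h1 h2 h3 h4 h5 h6 h7 h8).trans ?_
  have hm0 : (0 : ℝ) < m := by exact_mod_cast (by omega : 0 < m)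
  have hm2 : (2 : ℝ) ≤ m := by exact_mod_cast h2
  have hmax : (1 : ℝ) ≤ max 1 Z := le_max_left _ _
  have hsq : 1 ≤ √(max 1 Z) := Real.one_le_sqrt.2 hmax
  have e1 : (A0 * Z / β) ^ (1 / (m : ℝ)) = (A0 / β) ^ (1 / (m : ℝ)) * Z ^ (1 / (m : ℝ)) := by
    rw [← Real.mul_rpow (by positivity) hZ]
    congr 1
    ring
  have e2 : Z ^ (1 / (m : ℝ)) ≤ √(max 1 Z) := by
    rw [Real.sqrt_eq_rpow]
    calc Z ^ (1 / (m : ℝ)) ≤ (max 1 Z) ^ (1 / (m : ℝ)) :=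
          Real.rpow_le_rpow hZ (le_max_right _ _) (by positivity)
      _ ≤ (max 1 Z) ^ (1 / 2 : ℝ) :=
          Real.rpow_le_rpow_of_exponent_le hmax (one_div_le_one_div_of_le (by norm_num) hm2)
  have e3 : 0 ≤ (A0 / β) ^ (1 / (m : ℝ)) := Real.rpow_nonneg (by positivity) _
  rw [e1]
  calc K * β ^ 2 * (1 + (A0 / β) ^ (1 / (m : ℝ)) * Z ^ (1 / (m : ℝ)))
      ≤ K * β ^ 2 * (√(max 1 Z) + (A0 / β) ^ (1 / (m : ℝ)) * √(max 1 Z)) := by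
        apply mul_le_mul_of_nonneg_left _ (by positivity)
        exact add_le_add hsq (mul_le_mul_of_nonneg_left e2 e3)
    _ = K * √(max 1 Z) * β ^ 2 * (1 + (A0 / β) ^ (1 / (m : ℝ))) := by ring

/-- **sum over all moduli for a weight on the full window**, scale `X0`; the mean `Z` of the
majorant `om` enters only through `√(max 1 Z)` -/
theorem top_wtZ (Pr : Finset ℕ) (g : ℕ → ℕ) (M M0 J : ℕ) (y : ℤ) (G om : ℤ → ℝ)
    (kw : ℕ → ℕ → ℝ) (A0 Z B E X0 τ σ lam0 ε1 ε2 : ℝ) (QQ : Finset ℕ)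
    (hPr : ∀ p ∈ Pr, p.Prime) (hg : ∀ p ∈ Pr, 1 ≤ g p) (hkw : ∀ p j, 0 ≤ kw p j)
    (hG0 : ∀ n, 0 ≤ G n) (hG1 : ∀ n, G n ≤ A0 * om n) (hA : 0 < A0) (hZ : 0 < Z) (hM : 1 ≤ M)
    (hE : 0 ≤ E)
    (hX0 : 0 < X0) (hJ : 1 ≤ J) (hAJ : Real.log (A0 * (M / X0)) ≤ 2 ^ J) (hB : 0 ≤ B)
    (hτ : 0 ≤ τ) (hlam : 0 < lam0) (hσ : 4 ≤ σ * lam0) (h10 : 0 ≤ ε1) (h11 : ε1 ≤ 1)
    (h20 : 0 ≤ ε2) (h21 : ε2 ≤ 1)
    (hom : ∀ d : ℕ, 1 ≤ d → (d : ℝ) ≤ M0 * Real.exp (5 * 2 ^ J * lam0) →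
      (∀ p ∈ d.primeFactors, p ∈ Pr) → ∀ x : ℤ, |mass om y M d x - M / (d : ℝ) * Z| ≤ E * Z)
    (hcap : E * (M0 * Real.exp (5 * 2 ^ J * lam0)) ≤ M)
    (hmass : ∀ d : ℕ, 1 ≤ d → (d : ℝ) ≤ M0 * Real.exp (2 ^ (J - 1) * lam0) →
      (∀ p ∈ d.primeFactors, p ∈ Pr) → ∀ x : ℤ, mass G y M d x ≤ B * (d : ℝ) ^ τ * (X0 / d))
    (hQ : ∀ q ∈ QQ, 1 < q ∧ q ≤ M0 ∧ (∀ p ∈ q.primeFactors, p ∈ Pr) ∧
      (spn g q : ℝ) ≤ Real.exp (2 ^ (J - 1) * lam0))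
    (h1 : ∀ p ∈ Pr, ∀ v, 1 ≤ v → v ≤ g p →
      kw p v * (24 * 2 ^ J * ((p ^ g p : ℕ) : ℝ) ^ (τ + σ)) ≤ ε1)
    (h2 : ∑ q2 ∈ (QQ.image (hi g)).erase 1, kapProd kw q2 * (q2 : ℝ) ^ (2 * τ) ≤ ε2) :
    ∑ q ∈ QQ, kapProd kw q * enG G y M q ≤
      64 * (ε1 + ε2) * X0 ^ 2 * (B ^ 2 + 1) * √(max 1 Z) := by
  have hMr : (0 : ℝ) < M := by exact_mod_cast hM
  set c : ℝ := M / X0 with hc
  have hc0 : 0 < c := by positivity
  set B' : ℝ := max B 1 with hB'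
  have hB'0 : 0 < B' := lt_of_lt_of_le one_pos (le_max_right _ _)
  have hB'2 : B' ^ 2 + 1 ≤ 2 * (B ^ 2 + 1) := by
    rcases le_total B 1 with h | h
    · rw [hB', max_eq_right h]
      nlinarith [sq_nonneg B]
    · rw [hB', max_eq_left h]
      nlinarith [sq_nonneg B]
  have hmN : ∀ d : ℕ, ∀ x : ℤ, mass (fun n => Z⁻¹ * om n) y M d x = Z⁻¹ * mass om y M d x :=
    fun d x => mass_smul Z⁻¹ om y M d x
  have hcls0 := cls_wt Pr g M y (fun n => c * G n) (fun n => Z⁻¹ * om n) ((A0 * c) * Z) E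
    (M0 * Real.exp (5 * 2 ^ J * lam0)) hPr hg
    (fun n => mul_nonneg hc0.le (hG0 n))
    (fun n => by
      have h3 := mul_le_mul_of_nonneg_left (hG1 n) hc0.le
      calc c * G n ≤ c * (A0 * om n) := h3
        _ = A0 * c * Z * (Z⁻¹ * om n) := by field_simp)
    (by positivity) hM hE
    (by
      intro d hd1 hd2 hd3 x
      have h3 := hom d hd1 hd2 hd3 x
      rw [hmN d x]
      have h4 : Z⁻¹ * mass om y M d x - M / (d : ℝ) =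
          Z⁻¹ * (mass om y M d x - M / (d : ℝ) * Z) := by
        field_simp
      rw [h4, abs_mul, abs_of_pos (inv_pos.2 hZ), inv_mul_le_iff₀ hZ]
      linarith) hcap
  have H : SumH Pr g (fun d r => ∀ x : ℤ, mass (fun n => c * G n) y M d x ≤ r * (M / (d : ℝ)))
      (enG (fun n => c * G n) y M) (2 * (M : ℝ) ^ 2 * √(max 1 Z)) (A0 * c)
      (M0 * Real.exp (5 * 2 ^ J * lam0)) kw M0 J B' τ σ lam0 ε1 ε2 QQ :=
    { prime := hPr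
      hg := hg
      cls := cls_Z (by positivity) (by positivity) hZ.le hcls0
      En0 := fun q => Finset.sum_nonneg fun _ _ => sq_nonneg _
      K0 := by positivity
      kw0 := hkw
      A0 := by positivity
      J1 := hJ
      A1 := hAJ
      B0 := hB'0
      τ0 := hτ
      lam := hlam
      σl := hσ
      e10 := h10
      e11 := h11
      e20 := h20
      e21 := h21
      mass := by
        intro d hd1 hd2 hd3 x
        have h3 := hmass d hd1 hd2 hd3 x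
        have hdr : (0 : ℝ) < d := by exact_mod_cast hd1
        have h4 : 0 ≤ (d : ℝ) ^ τ := Real.rpow_nonneg hdr.le _
        rw [mass_smul]
        calc c * mass G y M d x ≤ c * (B * (d : ℝ) ^ τ * (X0 / d)) :=
              mul_le_mul_of_nonneg_left h3 hc0.le
          _ = B * (d : ℝ) ^ τ * (M / d) := by
              rw [hc]; field_simp
          _ ≤ B' * (d : ℝ) ^ τ * (M / d) := by
              have : B ≤ B' := le_max_left _ _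
              gcongr
      cap := le_rfl
      hQ := hQ
      h1 := h1
      h2 := h2 }
  have h := H.total
  have h3 : ∑ q ∈ QQ, kapProd kw q * enG (fun n => c * G n) y M q =
      c ^ 2 * ∑ q ∈ QQ, kapProd kw q * enG G y M q := by
    rw [Finset.mul_sum]
    refine Finset.sum_congr rfl fun q _ => ?_
    rw [enG_smul]
    ring
  rw [h3] at h
  have hc2 : 0 < c ^ 2 := by positivity
  rw [← le_div_iff₀' hc2] at h
  refine h.trans ?_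
  rw [div_le_iff₀ hc2]
  have h4 : X0 ^ 2 * c ^ 2 = (M : ℝ) ^ 2 := by
    rw [hc]; field_simp
  have hsq0 : 0 ≤ √(max 1 Z) := Real.sqrt_nonneg _
  calc 16 * (ε1 + ε2) * (2 * (M : ℝ) ^ 2 * √(max 1 Z)) * (B' ^ 2 + 1)
      ≤ 16 * (ε1 + ε2) * (2 * (M : ℝ) ^ 2 * √(max 1 Z)) * (2 * (B ^ 2 + 1)) := by gcongr
    _ = 64 * (ε1 + ε2) * X0 ^ 2 * (B ^ 2 + 1) * √(max 1 Z) * c ^ 2 := by rw [← h4]; ring


/-- **the sum over all moduli with top primes, numbers of target S** -/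
theorem top_S (k A C J0 : ℕ) (c cG τ0 th a2 : ℝ) (hc : 0 < c) (hcG : 0 < cG)
    (hth : 0 < th) (hC : A + 4 ≤ 2 * C) (hJ0 : 8 ≤ c * J0) (ha2 : J0 * a2 ≤ th / 2) :
    ∀ᶠ P : ℝ in atTop, ∀ (Pr PP : Finset ℕ) (kw : ℕ → ℕ → ℝ) (M M0 : ℕ) (y : ℤ)
      (G om : ℤ → ℝ) (A0 Z B E X0 τ : ℝ) (QQ : Finset ℕ),
      (∀ p ∈ Pr, TopP k A c P PP kw p) → (∀ p j, 0 ≤ kw p j) →
      (∀ n, 0 ≤ G n) → (∀ n, G n ≤ A0 * om n) → 0 < A0 → 0 < Z → 1 ≤ M → 0 ≤ E → 0 < X0 →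
      Real.log (A0 * (M / X0)) ≤ cG * (P / Real.log P ^ C) → 0 ≤ B → 0 ≤ τ →
      τ ≤ τ0 / Real.log P → (M0 : ℝ) ≤ Real.exp (a2 * P) →
      (∀ d : ℕ, 1 ≤ d → (d : ℝ) ≤ M0 * Real.exp (5 * th * P) →
        (∀ p ∈ d.primeFactors, p ∈ Pr) → ∀ x : ℤ, |mass om y M d x - M / (d : ℝ) * Z| ≤ E * Z) →
      E * (M0 * Real.exp (5 * th * P)) ≤ M →
      (∀ d : ℕ, 1 ≤ d → (d : ℝ) ≤ M0 * Real.exp (th / 2 * P) →
        (∀ p ∈ d.primeFactors, p ∈ Pr) → ∀ x : ℤ, mass G y M d x ≤ B * (d : ℝ) ^ τ * (X0 / d)) →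
      (∀ q ∈ QQ, 1 < q ∧ q ≤ M0 ∧ ∀ p ∈ q.primeFactors, p ∈ Pr) →
      ∑ q ∈ QQ, kapProd kw q * enG G y M q ≤
        128 / Real.log P * X0 ^ 2 * (B ^ 2 + 1) * √(max 1 Z) := by
  filter_upwards [num_S k A C J0 c cG τ0 th a2 hc hcG hth hC hJ0 ha2] with P e1
  obtain ⟨J, lam0, σ, hJ, hcG1, hlam, hσl, h5, h2J1, hl2, hl1, e2⟩ := e1
  intro Pr PP kw M M0 y G om A0 Z B E X0 τ QQ hPr hkw hG0 hG1 hA hZ hM hE hX0 hAJ hB hτ hτ1 hM0
    hom hcap hmass hQ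
  obtain ⟨hprime, hg, hQ2, h1, h2⟩ := e2 Pr PP kw M0 τ QQ hPr hkw hτ hτ1 hM0 hQ
  refine (top_wtZ Pr (gS PP J0) M M0 J y G om kw A0 Z B E X0 τ σ lam0 (1 / Real.log P)
    (1 / Real.log P) QQ hprime hg hkw hG0 hG1 hA hZ hM hE hX0 hJ
    (hAJ.trans hcG1) hB hτ hlam hσl hl2 hl1 hl2 hl1 ?_ ?_ ?_ hQ2 h1 h2).trans (le_of_eq ?_)
  · rw [h5]; exact hom
  · rw [h5]; exact hcap
  · rw [h2J1]; exact hmass
  · ring

end Vale.Agent.P042.H758
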