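import Vale.Agent.P042.H944.UoPush

set_option autoImplicit false
set_option linter.unusedSectionVars false

/-!
P042, S.7: the mean of the noisy weight `omc` over the reference law is at most one.
-/

namespace Vale.Agent.P042.H758
open Finset
open Vale.Agent.P042.TT.Loc (wt ex prod_sum_pi wt_nonneg sum_wt)
open Vale.Agent.P042.H944 (omc omc_nonneg)

variable {ι : Type} [Fintype ι] [DecidableEq ι] {V : ι → Type} [∀ i, Fintype (V i)]
  [∀ i, DecidableEq (V i)] {w : ∀ i, V i → ℝ}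

/-- mean of a product of nonnegative functions of the single coordinates -/
theorem ex_prod_le (h0 : ∀ i a, 0 ≤ w i a) (h1 : ∀ i, ∑ a, w i a = 1) (T : Finset ι)
    (φ : ∀ i, V i → ℝ) (hφ : ∀ i a, 0 ≤ φ i a) (hφ1 : ∀ i ∈ T, ∑ a, w i a * φ i a ≤ 1) :
    ex w (fun x => ∏ i ∈ T, φ i (x i)) ≤ 1 := by
  have e1 : ex w (fun x => ∏ i ∈ T, φ i (x i)) =
      ∏ i, ∑ a, w i a * (if i ∈ T then φ i a else 1) := by
    rw [prod_sum_pi]
    unfold ex wt
    refine sum_congr rfl fun x _ => ?_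
    rw [prod_mul_distrib]
    congr 1
    rw [prod_ite_mem, univ_inter]
  rw [e1]
  apply prod_le_one
  · intro i _
    apply sum_nonneg
    intro a _
    apply mul_nonneg (h0 i a)
    split_ifs
    · exact hφ i a
    · exact zero_le_one
  · intro i _
    by_cases hi : i ∈ T
    · simp only [hi, if_true]
      exact hφ1 i hi
    · simp only [hi, if_false, mul_one]
      exact (h1 i).le

/-- the mean of the noisy weight at a point `n` -/
theorem ex_omc_le (red : ℤ → ∀ i, V i) (h0 : ∀ i a, 0 ≤ w i a) (h1 : ∀ i, ∑ a, w i a = 1)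
    {q : ι → ℝ} (hq : ∀ i, 0 ≤ q i) (hq1 : ∀ i, q i ≤ 1) (T : Finset ι) (n : ℤ) :
    ex w (fun x => omc w red q T x n) ≤ 1 := by
  refine ex_prod_le h0 h1 T
    (fun i a => (1 - q i) + q i * (if red n i = a then (w i a)⁻¹ else 0)) ?_ ?_
  · intro i a
    refine add_nonneg (by linarith [hq1 i]) (mul_nonneg (hq i) ?_)
    split_ifs
    · exact inv_nonneg.2 (h0 _ _)
    · exact le_rfl
  · intro i _
    have e1 : ∀ a, w i a * ((1 - q i) + q i * (if red n i = a then (w i a)⁻¹ else 0)) =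
        (1 - q i) * w i a + q i * (if red n i = a then w i a * (w i a)⁻¹ else 0) := by
      intro a
      split_ifs
      · ring
      · ring
    rw [sum_congr rfl fun a _ => e1 a, sum_add_distrib, ← mul_sum, ← mul_sum, h1 i,
      sum_ite_eq univ (red n i), if_pos (mem_univ _)]
    have h2 : w i (red n i) * (w i (red n i))⁻¹ ≤ 1 := by
      by_cases h : w i (red n i) = 0
      · rw [h, zero_mul]; exact zero_le_one
      · rw [mul_inv_cancel₀ h]
    have h3 := mul_le_mul_of_nonneg_left h2 (hq i)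
    linarith

/-- the mean of the noisy weight for the uniform measure on `∏ V i` (`prm i ≥ card (V i)`) -/
noncomputable def Zun (w : ∀ i, V i → ℝ) (prm : ι → ℕ) (q : ι → ℝ) (T : Finset ι)
    (x : ∀ i, V i) : ℝ :=
  ∏ i ∈ T, ((1 - q i) + q i * ((w i (x i))⁻¹ / prm i))

theorem Zun_nonneg (prm : ι → ℕ) (h0 : ∀ i a, 0 ≤ w i a) {q : ι → ℝ} (hq : ∀ i, 0 ≤ q i)
    (hq1 : ∀ i, q i ≤ 1) (T : Finset ι) (x : ∀ i, V i) : 0 ≤ Zun w prm q T x :=
  prod_nonneg fun i _ => add_nonneg (by linarith [hq1 i])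
    (mul_nonneg (hq i) (div_nonneg (inv_nonneg.2 (h0 _ _)) (Nat.cast_nonneg _)))

theorem Zun_pos (prm : ι → ℕ) (h0 : ∀ i a, 0 ≤ w i a) {q : ι → ℝ} (hq : ∀ i, 0 ≤ q i)
    (hq1 : ∀ i, q i < 1) (T : Finset ι) (x : ∀ i, V i) : 0 < Zun w prm q T x :=
  prod_pos fun i _ => add_pos_of_pos_of_nonneg (by linarith [hq1 i])
    (mul_nonneg (hq i) (div_nonneg (inv_nonneg.2 (h0 _ _)) (Nat.cast_nonneg _)))

theorem ex_Zun_le (prm : ι → ℕ) (hprm : ∀ i, Fintype.card (V i) ≤ prm i)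
    (h0 : ∀ i a, 0 ≤ w i a) (h1 : ∀ i, ∑ a, w i a = 1) {q : ι → ℝ} (hq : ∀ i, 0 ≤ q i)
    (hq1 : ∀ i, q i ≤ 1) (T : Finset ι) : ex w (fun x => Zun w prm q T x) ≤ 1 := by
  refine ex_prod_le h0 h1 T (fun i a => (1 - q i) + q i * ((w i a)⁻¹ / prm i)) ?_ ?_
  · intro i a
    exact add_nonneg (by linarith [hq1 i])
      (mul_nonneg (hq i) (div_nonneg (inv_nonneg.2 (h0 _ _)) (Nat.cast_nonneg _)))
  · intro i _
    have e1 : ∀ a, w i a * ((1 - q i) + q i * ((w i a)⁻¹ / prm i)) =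
        (1 - q i) * w i a + q i * (w i a * (w i a)⁻¹ / prm i) := by
      intro a
      ring
    rw [sum_congr rfl fun a _ => e1 a, sum_add_distrib, ← mul_sum, ← mul_sum, h1 i]
    have h2 : ∑ a, w i a * (w i a)⁻¹ / (prm i : ℝ) ≤ 1 := by
      have h3 : ∀ a ∈ (univ : Finset (V i)), w i a * (w i a)⁻¹ / (prm i : ℝ) ≤ 1 / prm i := by
        intro a _
        apply div_le_div_of_nonneg_right _ (Nat.cast_nonneg _)
        by_cases h : w i a = 0
        · rw [h, zero_mul]; exact zero_le_one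
        · rw [mul_inv_cancel₀ h]
      refine (sum_le_sum h3).trans ?_
      rw [sum_const, card_univ, nsmul_eq_mul, mul_one_div]
      apply div_le_one_of_le₀ _ (Nat.cast_nonneg _)
      exact_mod_cast hprm i
    have h3 := mul_le_mul_of_nonneg_left h2 (hq i)
    linarith

/-- averages of `omc` over a finite set of integers -/
theorem ex_avg_omc_le (red : ℤ → ∀ i, V i) (h0 : ∀ i a, 0 ≤ w i a) (h1 : ∀ i, ∑ a, w i a = 1)
    {q : ι → ℝ} (hq : ∀ i, 0 ≤ q i) (hq1 : ∀ i, q i ≤ 1) (T : Finset ι) (S : Finset ℤ) :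
    ex w (fun x => (∑ n ∈ S, omc w red q T x n) / S.card) ≤ 1 := by
  have e1 : ex w (fun x => (∑ n ∈ S, omc w red q T x n) / S.card) =
      (∑ n ∈ S, ex w (fun x => omc w red q T x n)) / S.card := by
    unfold ex
    simp only [div_eq_mul_inv, mul_sum, sum_mul]
    rw [sum_comm]
    refine sum_congr rfl fun n _ => sum_congr rfl fun x _ => ?_
    ring
  rw [e1]
  apply div_le_one_of_le₀ _ (Nat.cast_nonneg _)
  refine (sum_le_sum fun n _ => ex_omc_le red h0 h1 hq hq1 T n).trans (le_of_eq ?_)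
  rw [sum_const, nsmul_eq_mul, mul_one]

/-- from the mean of `Z` to the second moment of `√(max 1 Z)` -/
theorem ex_sqrt_max_sq (h0 : ∀ i a, 0 ≤ w i a) (h1 : ∀ i, ∑ a, w i a = 1)
    (Z : (∀ i, V i) → ℝ) (hZ0 : ∀ x, 0 ≤ Z x) (hZ : ex w Z ≤ 1) :
    ex w (fun x => √(max 1 (Z x)) ^ 2) ≤ 2 := by
  have e1 : ∀ x, wt w x * √(max 1 (Z x)) ^ 2 ≤ wt w x * 1 + wt w x * Z x := by
    intro x
    rw [Real.sq_sqrt (le_max_of_le_left zero_le_one), ← mul_add]
    apply mul_le_mul_of_nonneg_left _ (wt_nonneg w h0 x)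
    apply max_le
    · linarith [hZ0 x]
    · linarith
  unfold ex at hZ ⊢
  refine (sum_le_sum fun x _ => e1 x).trans ?_
  rw [sum_add_distrib, ← sum_mul, sum_wt w h1]
  linarith

end Vale.Agent.P042.H758
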